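import Vale.Agent.P259.Sing.CellMaps

/-!
# P259, Sing: spaces are naturally equivalent to the realisations of their groupoids
-/

namespace Vale.Agent.P259.Sing

open CategoryTheory
open P259.Top (Filler DiscLoop)
open scoped Topology unitInterval

noncomputable section

theorem isTopWeq_of_isWeq {A B : CompactlyGenerated.{0, 0}} (f : A ⟶ B)
    (h : P259.Top.IsWeq (cmap f)) : IsTopWeq f := by
  obtain ⟨h0, hinj, hn⟩ := (P259.Top.isWeq_iff _).1 h
  refine isTopWeq_of_bijAt f h0 fun n x => ?_
  cases n with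
  | succ n => exact hn (n + 1) n.succ_pos x
  | zero =>
    have hconst : ∀ {W : Type} [TopologicalSpace W] (a : C(P259.Top.Disc 0, W)),
        a = ContinuousMap.const _ (a P259.Top.discPoint) := fun {W} _ a =>
      ContinuousMap.ext fun v => congrArg a (Subsingleton.elim v _)
    refine ⟨fun c => ?_, fun a b hab => ?_⟩
    · obtain ⟨x', hx⟩ := h0 (c.1 P259.Top.discPoint)
      refine ⟨⟨ContinuousMap.const _ x', fun v hv => absurd hv (by simp [P259.Top.rim_zero])⟩, ?_⟩
      rw [hconst ((cmap f).comp _), hconst c.1, ← P259.Top.joined_iff_filler]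
      exact hx
    · rw [hconst ((cmap f).comp a.1), hconst ((cmap f).comp b.1),
        ← P259.Top.joined_iff_filler] at hab
      rw [hconst a.1, hconst b.1, ← P259.Top.joined_iff_filler]
      exact hinj _ _ hab

theorem topWeq_last (Y : CompactlyGenerated.{0, 0}) : topWeq (last.app Y) :=
  isTopWeq_of_isWeq (last.app Y) isWeq_lastMap

/-- Maps of the ball agreeing on the sphere are homotopic there if their images in the space are. -/
theorem homotopicRel_of_last {Y : Type} [TopologicalSpace Y] {n : ℕ}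
    (f g : C(Ball n, (sys Y).Space)) (hfg : ∀ v ∈ rim n, f v = g v)
    (h : ((lastMap Y).comp f).HomotopicRel ((lastMap Y).comp g) (rim n)) :
    f.HomotopicRel g (rim n) := by
  have key : ∀ u : C(Ball n, (sys Y).Space),
      ofDisc (u.comp ((ballDisc n).symm : C(P259.Top.Disc n, Ball n))) = u := fun u =>
    ContinuousMap.ext fun v => congrArg u ((ballDisc n).symm_apply_apply v)
  have key' : ∀ u : C(Ball n, (sys Y).Space),
      ofDisc ((lastMap Y).comp (u.comp ((ballDisc n).symm : C(P259.Top.Disc n, Ball n))))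
        = (lastMap Y).comp u := fun u =>
    ContinuousMap.ext fun v => congrArg (lastMap Y) (congrArg u ((ballDisc n).symm_apply_apply v))
  have := filler_of_last Y (f.comp ((ballDisc n).symm : C(P259.Top.Disc n, Ball n)))
    (g.comp ((ballDisc n).symm : C(P259.Top.Disc n, Ball n)))
    (fun w hw => hfg _ ((Ball.mem_rim_iff _).2 (by simpa using hw)))
    (filler_iff.2 (by rw [key', key']; exact h))
  rwa [filler_iff, key, key] at this

theorem nat_apply {G G' : CompactlyGenerated.{0, 0} ⥤ CompactlyGenerated.{0, 0}} (α : G ⟶ G')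
    {A Y : CompactlyGenerated.{0, 0}} (f : A ⟶ Y) (p : (G.obj A).toTop) :
    cmap (α.app Y) (cmap (G.map f) p) = cmap (G'.map f) (cmap (α.app A) p) :=
  ConcreteCategory.congr_hom (α.naturality f) p

variable {C : Coherator} (S : Simplices C.C) (D : DiscFunctor C.C)

/-- The functor compared with the singular realisation. -/
abbrev realPiFunctor : CompactlyGenerated.{0, 0} ⥤ CompactlyGenerated.{0, 0} :=
  D.pi ⋙ S.toSimpBase.realFunctor

/-- The comparison map of a space. -/
abbrev etaMap (Y : CompactlyGenerated.{0, 0}) :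
    C((Q.obj Y).toTop, ((realPiFunctor S D).obj Y).toTop) :=
  cmap ((eta S D).app Y)

theorem etaMap_natural {A Y : CompactlyGenerated.{0, 0}} (f : A ⟶ Y) (p : (Q.obj A).toTop) :
    etaMap S D Y (cmap (Q.map f) p) = cmap ((realPiFunctor S D).map f) (etaMap S D A p) :=
  nat_apply (eta S D) f p

/-- The chosen point over the point. -/
def star : (Q.obj (splxObj 0)).toTop := ptSpace (Splx 0) ptPoint

variable {Y : CompactlyGenerated.{0, 0}}

/-- The chosen point over a point. -/
def basePt (y : Y.toTop) : (Q.obj Y).toTop := cmap (Q.map (ofPt y)) star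

theorem last_ofPt (y : Y.toTop) (z : (Q.obj (splxObj 0)).toTop) :
    lastMap Y.toTop (cmap (Q.map (ofPt y)) z) = y :=
  lastMap_natural (cmap (ofPt y)) z

theorem joined_basePt (x : (Q.obj Y).toTop) : Joined (basePt (lastMap Y.toTop x)) x :=
  joined_of_last Y.toTop _ _ (by rw [basePt, last_ofPt])

theorem linked_homotopicRel {n : ℕ} {A B : discObj D n ⟶ Y}
    (h : C.C.Linked (D.sing.obj Y) A B) :
    ((cmap A).comp ((stdFam D).u n)).HomotopicRel ((cmap B).comp ((stdFam D).u n)) (rim n) := by
  have := filler_iff.1 ((D.linked_iff Y A B).1 h)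
  exact this

variable (hD : ∀ T : Table, WC (D.D.obj (C.C.i.obj T)).toTop) (hW : Spec.RealWC)
  (hF : Spec.SysFills) (J : Iota S.toSimpBase)

include hW hF in
theorem wc_realPi {X : CompactlyGenerated.{0, 0}} (hX : WC X.toTop) :
    WC ((realPiFunctor S D).obj X).toTop :=
  hW _ (hF C S _ (ctr_pi D hX))

include hD hW hF in
/-- The comparison map carries the lifts of cells to the maps of the cells. -/
theorem exists_lift_fam : ∃ κ : (fTower D Q).Fam,
    (∀ j (a : discObj D j ⟶ Y) v, Joined (etaMap S D Y (cmap (Q.map a) (κ.u j v)))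
      (J.theta (D.pi.obj Y) (n := j) a v)) ∧
    ∀ {n : ℕ} {y : Y.toTop} (a : discObj D (n + 1) ⟶ Y) (ha : HasPtSides a y),
      (cellMap (pushFam κ (eta S D)) a ha).Hom (cellMap (thetaFam D S J) a ha) ∧
      (cellMap (pushFam κ last) a ha).Hom (cellMap (stdFam D) a ha) := by
  have hQ : ∀ j, WC ((fTower D Q).V j) := fun j => wc_space _ (hD (disc j))
  have hG : ∀ j, WC ((fTower D (realPiFunctor S D)).V j) := fun j =>
    wc_realPi S D hW hF (hD (disc j))
  obtain ⟨κ⟩ := DiscTower.exists_fam hQ
  refine ⟨κ, fun j a v => ?_, fun a ha =>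
    ⟨cellMap_hom _ _ hG a ha, cellMap_hom _ _ (fun j => hD (disc j)) a ha⟩⟩
  obtain ⟨H, H0, H1, -⟩ := DiscTower.exists_fam_homotopy hG (pushFam κ (eta S D)) (thetaFam D S J)
  refine ⟨⟨⟨fun t => cmap ((realPiFunctor S D).map a) (H j (v, t)),
    (cmap ((realPiFunctor S D).map a)).continuous.comp
      ((H j).continuous.comp (continuous_const.prodMk continuous_id))⟩, ?_, ?_⟩⟩
  · exact (congrArg (cmap ((realPiFunctor S D).map a)) (H0 j v)).trans
      (etaMap_natural S D a (κ.u j v)).symm
  · exact (congrArg (cmap ((realPiFunctor S D).map a)) (H1 j v)).trans (thetaFam_cell D S J a v)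

theorem par_toPt : ∀ n, C.C.Par (D.pi.obj (splxObj 0)).obj (n := n) (toPt D n) (toPt D n)
  | 0 => trivial
  | _ + 1 => fun _ => rfl

theorem cellBdry_theta (n : ℕ) (e : Bool) (v : Ball n) :
    cellBdry (thetaFam D S J) n ⟨hemi e n v, Ball.hemi_mem_rim e v⟩
      = J.theta (D.pi.obj (splxObj 0)) (n := n) (toPt D n) v :=
  (cellBdry_hemi _ e v).trans (thetaFam_cell D S J (toPt D n) v)

/-- A map of pairs over the comparison, from one over the singular realisation. -/
abbrev pushEta {y : Y.toTop} {n : ℕ} (p : PMap (rim n) (cmap (Q.map (ofPt y)))) :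
    PMap (rim n) (cmap ((realPiFunctor S D).map (ofPt y))) :=
  p.map (etaMap S D Y) (etaMap S D (splxObj 0)) (cmap ((realPiFunctor S D).map (ofPt y)))
    fun z => etaMap_natural S D (ofPt y) z

/-- A map of pairs in the space, from one over the singular realisation. -/
abbrev pushLast {y : Y.toTop} {n : ℕ} (p : PMap (rim n) (cmap (Q.map (ofPt y)))) :
    PMap (rim n) (cmap ((𝟭 CompactlyGenerated.{0, 0}).map (ofPt y))) :=
  p.map (lastMap Y.toTop) (lastMap (Splx 0)) (cmap ((𝟭 CompactlyGenerated.{0, 0}).map (ofPt y)))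
    fun z => lastMap_natural (cmap (ofPt y)) z

variable (hpi : Spec.RealPi)

include hD hW hF hpi in
theorem bijAt_basePt (n : ℕ) (y : Y.toTop) : BijAt (etaMap S D Y) (n + 1) (basePt y) := by
  obtain ⟨J⟩ := Pi.iotaExists hW hF C S
  obtain ⟨κ, -, hκ⟩ := exists_lift_fam (Y := Y) S D hD hW hF J
  have hB := isBall_rim (n + 1)
  have hQpt : WC (Q.obj (splxObj 0)).toTop := wc_space _ (wc_splx 0)
  have hGpt := wc_realPi S D hW hF (X := splxObj 0) (wc_splx 0)
  obtain ⟨hsurj, hinj⟩ := hpi C S J (D.pi.obj (splxObj 0)) (D.pi.obj Y) (D.pi.map (ofPt y))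
    (ctr_pi D (X := splxObj 0) (wc_splx 0)) n (fun _ => toPt D n) (par_toPt D n)
    (cellBdry (thetaFam D S J) n) (fun e v _ => cellBdry_theta S D J n e v)
  refine ⟨fun c => ?_, fun a b hab => ?_⟩
  · let P : PMap (rim (n + 1)) (cmap ((realPiFunctor S D).map (ofPt y))) :=
      ⟨ofDisc c.1, ContinuousMap.const _ (etaMap S D (splxObj 0) star), fun v =>
        (c.2 _ ((Ball.mem_rim_iff v.1).1 v.2)).trans (etaMap_natural S D (ofPt y) star)⟩
    obtain ⟨⟨f, w, hf⟩, hw, hPf⟩ := P.exists_boundary_eq hB hGpt (cellBdry (thetaFam D S J) n)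
    obtain rfl : w = cellBdry (thetaFam D S J) n := hw
    obtain ⟨α, hα, hα', hHom⟩ := hsurj f hf
    have hs : HasPtSides (D := D) (n := n) α y := fun e => by
      cases e
      · exact hα.1
      · exact hα.2
    have e1 : cellMap (thetaFam D S J) α hs = PMap.mk (J.theta (D.pi.obj Y) α) _ hα' :=
      PMap.ext (ContinuousMap.ext fun v => thetaFam_cell D S J α v) rfl
    obtain ⟨q, hq, hκq⟩ := (cellMap κ α hs).exists_based hB hQpt star
    have e2 : pushEta S D (cellMap κ α hs) = cellMap (pushFam κ (eta S D)) α hs :=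
      cellMap_push κ (eta S D) α hs _
    have hmap : (pushEta S D (cellMap κ α hs)).Hom (pushEta S D q) := hκq.map _ _ _ _
    have hall : (pushEta S D q).Hom P := by
      refine hmap.symm.trans ?_
      rw [e2]
      refine (hκ α hs).1.trans ?_
      rw [e1]
      exact hHom.trans hPf.symm
    have hw' : (pushEta S D q).w = P.w :=
      ContinuousMap.ext fun v => congrArg (etaMap S D (splxObj 0)) (DFunLike.congr_fun hq v)
    have hrel := (PMap.hom_iff_homotopicRel hB hGpt hw').1 hall
    obtain ⟨a, ha⟩ := exists_ballLoop (y := basePt y) q.f fun v =>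
      (q.comm v).trans (congrArg (cmap (Q.map (ofPt y))) (DFunLike.congr_fun hq v))
    refine ⟨a, filler_iff.2 ?_⟩
    have e3 : ofDisc ((etaMap S D Y).comp a.1) = (etaMap S D Y).comp q.f :=
      ContinuousMap.ext fun v => congrArg (etaMap S D Y) (DFunLike.congr_fun ha v)
    rw [e3]
    exact hrel
  · let loopP : DiscLoop (n + 1) (Q.obj Y).toTop (basePt y) →
        PMap (rim (n + 1)) (cmap (Q.map (ofPt y))) := fun a =>
      ⟨ofDisc a.1, ContinuousMap.const _ star, fun v => a.2 _ ((Ball.mem_rim_iff v.1).1 v.2)⟩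
    -- every loop comes from a cell
    have claim : ∀ a, ∃ (A : discObj D (n + 1) ⟶ Y) (hA : HasPtSides A y),
        (cmap A).comp ((stdFam D).u (n + 1)) = (lastMap Y.toTop).comp (loopP a).f ∧
        (loopP a).Hom (cellMap κ A hA) := by
      intro a
      let A : discObj D (n + 1) ⟶ Y := ConcreteCategory.ofHom (C := CompactlyGenerated.{0, 0})
        (((lastMap Y.toTop).comp (loopP a).f).comp
          (D.homeo (n + 1) : C(C.C.discSpace D.D (n + 1), Ball (n + 1))))
      have hA : HasPtSides A y := fun e => ConcreteCategory.hom_ext _ _ fun x => by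
        show lastMap Y.toTop (ofDisc a.1 (D.homeo (n + 1) (cmap (D.D.map (C.C.face e n)) x))) = y
        rw [show D.homeo (n + 1) (cmap (D.D.map (C.C.face e n)) x) = hemi e n (D.homeo n x) from
          Subtype.ext (D.hemi n e x)]
        exact (congrArg (lastMap Y.toTop)
          (a.2 _ ((Ball.mem_rim_iff _).1 (Ball.hemi_mem_rim e _)))).trans (last_ofPt y star)
      have hAf : (cmap A).comp ((stdFam D).u (n + 1)) = (lastMap Y.toTop).comp (loopP a).f :=
        ContinuousMap.ext fun v => congrArg (fun u => lastMap Y.toTop (ofDisc a.1 u))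
          ((D.homeo (n + 1)).apply_symm_apply v)
      refine ⟨A, hA, hAf, ?_⟩
      obtain ⟨q, hq, hκq⟩ := (cellMap κ A hA).exists_based hB hQpt star
      refine (PMap.Hom.of_homotopicRel hq.symm ?_).trans hκq.symm
      refine homotopicRel_of_last _ _ (fun v hv => ?_) ?_
      · exact ((loopP a).comm ⟨v, hv⟩).trans ((q.comm ⟨v, hv⟩).trans
          (congrArg (cmap (Q.map (ofPt y))) (DFunLike.congr_fun hq ⟨v, hv⟩))).symm
      · have e2 : pushLast (cellMap κ A hA) = cellMap (pushFam κ last) A hA :=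
          cellMap_push κ last A hA _
        have e1 : pushLast (loopP a) = cellMap (stdFam D) A hA :=
          PMap.ext hAf.symm (ContinuousMap.ext fun _ =>
            (Subsingleton.elim (α := Splx 0) _ _))
        have hall : (pushLast (loopP a)).Hom (pushLast q) := by
          rw [e1]
          refine (hκ A hA).2.symm.trans ?_
          rw [← e2]
          exact hκq.map _ _ _ _
        exact (PMap.hom_iff_homotopicRel hB (wc_splx 0) (ContinuousMap.ext fun _ =>
          (Subsingleton.elim (α := Splx 0) _ _))).1 hall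
    have toTheta : ∀ (a) (A : discObj D (n + 1) ⟶ Y) (hA : HasPtSides A y),
        (loopP a).Hom (cellMap κ A hA) →
        (pushEta S D (loopP a)).Hom (cellMap (thetaFam D S J) A hA) := fun a A hA h => by
      refine (h.map _ _ _ _).trans ?_
      rw [cellMap_push κ (eta S D) A hA]
      exact (hκ A hA).1
    obtain ⟨A, hA, hAf, haA⟩ := claim a
    obtain ⟨B, hB', hBf, hbB⟩ := claim b
    have hmid : (pushEta S D (loopP a)).Hom (pushEta S D (loopP b)) :=
      PMap.Hom.of_homotopicRel rfl (filler_iff.1 hab)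
    have hAB : (cellMap (thetaFam D S J) A hA).Hom (cellMap (thetaFam D S J) B hB') :=
      ((toTheta a A hA haA).symm.trans hmid).trans (toTheta b B hB' hbB)
    have e1 : ∀ (A : discObj D (n + 1) ⟶ Y) (hA : HasPtSides A y), ∃ h,
        cellMap (thetaFam D S J) A hA
          = PMap.mk (J.theta (D.pi.obj Y) (n := n + 1) A) (cellBdry (thetaFam D S J) n) h :=
      fun A hA => ⟨fun v => (thetaFam_cell D S J A v.1).symm.trans
        ((cellMap (thetaFam D S J) A hA).comm v),
        PMap.ext (ContinuousMap.ext fun v => thetaFam_cell D S J A v) rfl⟩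
    obtain ⟨ha₁, ea⟩ := e1 A hA
    obtain ⟨hb₁, eb⟩ := e1 B hB'
    rw [ea, eb] at hAB
    have hl := linked_homotopicRel D
      (hinj A B ⟨hA false, hA true⟩ ⟨hB' false, hB' true⟩ ha₁ hb₁ hAB)
    rw [hAf, hBf] at hl
    exact filler_iff.2 (homotopicRel_of_last _ _ (fun v hv =>
      (a.2 _ ((Ball.mem_rim_iff v).1 hv)).trans (b.2 _ ((Ball.mem_rim_iff v).1 hv)).symm) hl)

variable (hp : Spec.RealPoints) (hp0 : Spec.RealPiZero)

include hD hW hF hp hp0 in
theorem eta_components :
    (∀ z, ∃ x, Joined (etaMap S D Y x) z) ∧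
      ∀ x x', Joined (etaMap S D Y x) (etaMap S D Y x') → Joined x x' := by
  obtain ⟨J⟩ := Pi.iotaExists hW hF C S
  obtain ⟨κ, hj, -⟩ := exists_lift_fam (Y := Y) S D hD hW hF J
  refine ⟨fun z => ?_, fun x x' hxx => ?_⟩
  · obtain ⟨a, ha⟩ := hp C S J (D.pi.obj Y) z
    exact ⟨cmap (Q.map (a : discObj D 0 ⟶ Y)) (κ.u 0 Ball.pt),
      (hj 0 a Ball.pt).trans (ha Ball.pt)⟩
  · let A : Y.toTop → (discObj D 0 ⟶ Y) := fun y => toPt D 0 ≫ ofPt y
    have hA : ∀ (x : (Q.obj Y).toTop) v,
        Joined (etaMap S D Y x) (J.theta (D.pi.obj Y) (n := 0) (A (lastMap Y.toTop x)) v) :=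
      fun x v => by
        refine Joined.trans ?_ (hj 0 (A (lastMap Y.toTop x)) v)
        refine (joined_of_last Y.toTop _ _ ?_).map (etaMap S D Y).continuous
        rw [show lastMap Y.toTop (cmap (Q.map (A (lastMap Y.toTop x))) (κ.u 0 v))
            = lastMap Y.toTop x from lastMap_natural (cmap (A (lastMap Y.toTop x))) (κ.u 0 v)]
    obtain ⟨H⟩ := linked_homotopicRel D (hp0 C S J (D.pi.obj Y) (A (lastMap Y.toTop x))
      (A (lastMap Y.toTop x')) fun v => ((hA x v).symm.trans hxx).trans (hA x' v))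
    exact joined_of_last Y.toTop x x' ⟨⟨⟨fun t => H (t, Ball.pt),
      H.continuous.comp (continuous_id.prodMk continuous_const)⟩,
      H.apply_zero Ball.pt, H.apply_one Ball.pt⟩⟩

include hD hW hF hp hp0 hpi in
theorem topWeq_eta (Y : CompactlyGenerated.{0, 0}) : topWeq ((eta S D).app Y) := by
  obtain ⟨h0, hi⟩ := eta_components (Y := Y) S D hD hW hF hp hp0
  refine isTopWeq_of_bijAt ((eta S D).app Y) h0 fun n x => ?_
  cases n with
  | succ n =>
    exact (bijAt_basePt S D hD hW hF hpi n (lastMap Y.toTop x)).of_joined (joined_basePt x)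
  | zero =>
    have hconst : ∀ {W : Type} [TopologicalSpace W] (a : C(P259.Top.Disc 0, W)),
        a = ContinuousMap.const _ (a P259.Top.discPoint) := fun {W} _ a =>
      ContinuousMap.ext fun v => congrArg a (Subsingleton.elim v _)
    refine ⟨fun c => ?_, fun a b hab => ?_⟩
    · obtain ⟨x', hx⟩ := h0 (c.1 P259.Top.discPoint)
      refine ⟨⟨ContinuousMap.const _ x', fun v hv => absurd hv (by simp [P259.Top.rim_zero])⟩, ?_⟩
      rw [hconst (ContinuousMap.comp _ _), hconst c.1, ← P259.Top.joined_iff_filler]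
      exact hx
    · rw [hconst (ContinuousMap.comp _ a.1), hconst (ContinuousMap.comp _ b.1),
        ← P259.Top.joined_iff_filler] at hab
      rw [hconst a.1, hconst b.1, ← P259.Top.joined_iff_filler]
      exact hi _ _ hab

/-- Spaces are naturally equivalent to the realisations of their groupoids. -/
theorem topReal (hW : Spec.RealWC) (hF : Spec.SysFills) (hp : Spec.RealPoints)
    (hp0 : Spec.RealPiZero) (hpi : Spec.RealPi) : Spec.TopReal := fun _ S D hD =>
  ⟨Q, last, eta S D, fun Y =>
    ⟨topWeq_last Y, topWeq_eta S D hD hW hF hpi hp hp0 Y⟩⟩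

end

end Vale.Agent.P259.Sing
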