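import Vale.Agent.P259.Sing.Sys
import Vale.Agent.P259.Pi.Ball
import Vale.Agent.P259.Complex.Simplex

/-!
# P259, Sing: groupoids of weakly contractible spaces, the maps from the simplices of models
-/

namespace Vale.Agent.P259.Sing

open CategoryTheory
open P259.Complex P259.Complex.Real
open P259.Top (Filler)
open scoped Topology unitInterval

noncomputable section

/-- The simplex with chains as faces is the full simplex. -/
def splxHomeo (k : ℕ) : Splx k ≃ₜ stdSimplex ℝ (Fin (k + 1)) :=
  Homeomorph.trans
    { toFun := Real.map id (Cx.isSimplicial_full _)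
      invFun := Real.map id fun _ _ _ => Cx.mem_chains.2 fun _ _ _ _ _ => le_total _ _
      left_inv := fun x => Real.ext (by
        show (x.w.mapDomain id).mapDomain id = x.w
        rw [Finsupp.mapDomain_id, Finsupp.mapDomain_id])
      right_inv := fun x => Real.ext (by
        show (x.w.mapDomain id).mapDomain id = x.w
        rw [Finsupp.mapDomain_id, Finsupp.mapDomain_id])
      continuous_toFun := Real.continuous_map _ _
      continuous_invFun := Real.continuous_map _ _ }
    (Real.fullHomeo k)

/-- Standard simplices are weakly contractible. -/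
theorem wc_splx (k : ℕ) : WC (Splx k) := by
  intro m f
  have : TietzeExtension.{0, 0} (stdSimplex ℝ (Fin (k + 1))) := Simp.instTietzeExtension k
  obtain ⟨F, hF⟩ := ContinuousMap.exists_restrict_eq (Ball.isClosed_rim m)
    ((splxHomeo k : C(Splx k, stdSimplex ℝ (Fin (k + 1)))).comp f)
  refine ⟨((splxHomeo k).symm : C(stdSimplex ℝ (Fin (k + 1)), Splx k)).comp F, fun v => ?_⟩
  show (splxHomeo k).symm (F v.1) = f v
  rw [show F v.1 = splxHomeo k (f v) from DFunLike.congr_fun hF v, Homeomorph.symm_apply_apply]

variable {E : Ext} (D : DiscFunctor E)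

/-- The fundamental groupoid of a weakly contractible space is contractible. -/
theorem ctr_pi {X : CompactlyGenerated.{0, 0}} (hX : WC X.toTop) : E.Ctr (D.pi.obj X).obj := by
  have hne := hX.nonempty
  refine ⟨⟨(D.cellEquiv X 0).symm (ContinuousMap.const _ hne.some)⟩, fun {n} a b hab => ?_⟩
  refine (D.linked_iff X a b).2 ?_
  let fa : C(Ball n, X.toTop) :=
    (D.cellEquiv X n a).comp (ballDisc n : C(Ball n, P259.Top.Disc n))
  let fb : C(Ball n, X.toTop) :=
    (D.cellEquiv X n b).comp (ballDisc n : C(Ball n, P259.Top.Disc n))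
  have hrim : ∀ v ∈ rim n, fa v = fb v := by
    cases n with
    | zero => exact fun v hv => absurd hv (by simp [Ball.rim_zero])
    | succ n =>
      intro v hv
      obtain ⟨e, he⟩ := exists_discSide ((Ball.mem_rim_iff v).1 hv)
      show D.cellEquiv X (n + 1) a (ballDisc (n + 1) v) = D.cellEquiv X (n + 1) b (ballDisc (n + 1) v)
      rw [← he]
      exact (DFunLike.congr_fun (D.cellEquiv_face X e a) _).symm.trans
        ((DFunLike.congr_fun (congrArg (D.cellEquiv X n) (hab e)) _).trans
          (DFunLike.congr_fun (D.cellEquiv_face X e b) _))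
  obtain ⟨H, h0, h1, hH⟩ := hX.exists_homotopy fa fb
    ⟨fun p => fa p.1.1, fa.continuous.comp (continuous_subtype_val.comp continuous_fst)⟩
    (fun v => rfl) (fun v => hrim v.1 v.2)
  refine P259.Top.filler_iff_homotopicRel.2 ⟨⟨⟨⟨fun p => H ((ballDisc n).symm p.2, p.1),
    H.continuous.comp (((ballDisc n).symm.continuous.comp continuous_snd).prodMk continuous_fst)⟩,
    fun v => ?_, fun v => ?_⟩, fun t v hv => ?_⟩⟩
  · exact (h0 _).trans (congrArg (D.cellEquiv X n a) ((ballDisc n).apply_symm_apply v))
  · exact (h1 _).trans (congrArg (D.cellEquiv X n b) ((ballDisc n).apply_symm_apply v))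
  · have hv' : (ballDisc n).symm v ∈ rim n :=
      (Ball.mem_rim_iff _).2 (by rwa [Homeomorph.apply_symm_apply])
    exact (hH ⟨_, hv'⟩ t).trans (congrArg (D.cellEquiv X n a) ((ballDisc n).apply_symm_apply v))

/-- The standard simplex as an object. -/
abbrev splxObj (k : ℕ) : CompactlyGenerated.{0, 0} := CompactlyGenerated.of (Splx k)

/-- Maps of ordinals act on standard simplices. -/
def splxMap {k j : ℕ} (a : Op k j) : splxObj k ⟶ splxObj j := CompactlyGenerated.ofHom (mapO a)

theorem splxMap_comp {i k j : ℕ} (a : Op i k) (b : Op k j) :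
    splxMap a ≫ splxMap b = splxMap (b.comp a) :=
  ConcreteCategory.hom_ext _ _ fun x => mapO_comp a b x

theorem splxMap_id (k : ℕ) : splxMap (OrderHom.id : Op k k) = 𝟙 (splxObj k) :=
  ConcreteCategory.hom_ext _ _ fun x => mapO_id x

theorem op_le {j k : ℕ} {δ : Op j k} (h : Function.Injective δ) : j ≤ k := by
  simpa using Fintype.card_le_of_injective δ h

theorem op_eq_id {k : ℕ} {δ : Op k k} (h : Function.Injective δ) : δ = OrderHom.id := by
  refine OrderHom.ext _ _ (((δ.monotone.strictMono_of_injective h).range_inj strictMono_id).1 ?_)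
  rw [Set.range_id, (Finite.injective_iff_surjective.1 h).range_eq]

variable (B : SimpBase E)

/-- Maps from the simplices of models up to a dimension, natural in faces. -/
structure DeltaTo (n : ℕ) : Type 1 where
  d : ∀ j, j ≤ n → (B.F j ⟶ D.pi.obj (splxObj j))
  nat : ∀ {i j : ℕ} (δ : Op i j) (hi : i ≤ n) (hj : j ≤ n), Function.Injective δ →
    B.map δ ≫ d j hj = d i hi ≫ D.pi.map (splxMap δ)

variable {D B}

theorem exists_deltaTo (S : Simplices E) : ∃ f : ∀ n, DeltaTo D S.toSimpBase n,
    ∀ n j (h : j ≤ n), (f (n + 1)).d j (h.trans n.le_succ) = (f n).d j h := by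
  have h0 : Nonempty (DeltaTo D S.toSimpBase 0) := by
    obtain ⟨x⟩ := (ctr_pi D (X := splxObj 0) (wc_splx 0)).nonempty
    obtain ⟨g, -, -⟩ := S.zero_univ (D.pi.obj (splxObj 0)) x
    refine ⟨⟨fun j hj => ?_, ?_⟩⟩
    · obtain rfl := Nat.le_zero.1 hj
      exact g
    · intro i j δ hi hj hδ
      obtain rfl := Nat.le_zero.1 hi
      obtain rfl := Nat.le_zero.1 hj
      rw [op_eq_id hδ, S.map_id, splxMap_id, D.pi.map_id, Category.id_comp, Category.comp_id]
  have step : ∀ n (f : DeltaTo D S.toSimpBase n), ∃ f' : DeltaTo D S.toSimpBase (n + 1),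
      ∀ j (h : j ≤ n), f'.d j (h.trans n.le_succ) = f.d j h := by
    intro n f
    have hle : ∀ {j : ℕ} (v : (OCx.bdry (n + 1)).Simp j), j ≤ n := fun {j} v => by
      have h1 : Function.Injective v.1 := (v.2.1 : StrictMono v.1).injective
      have : Fintype (OCx.bdry (n + 1)).V := inferInstanceAs (Fintype (Fin (n + 1 + 1)))
      have h2 : Fintype.card (Fin (j + 1)) ≤ Fintype.card (Fin (n + 1 + 1)) :=
        Fintype.card_le_of_injective (β := Fin (n + 1 + 1)) v.1 h1
      by_contra hlt
      have hj : j = n + 1 := by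
        simp only [Fintype.card_fin] at h2
        omega
      subst hj
      exact v.2.2 (Finite.injective_iff_surjective.1 h1).range_eq
    let op : ∀ {j : ℕ}, (OCx.bdry (n + 1)).Simp j → Op j (n + 1) := fun v =>
      ⟨v.1, (v.2.1 : StrictMono v.1).monotone⟩
    let b : Fam (OCx.bdry (n + 1)) (S.toSimpBase.sys (D.pi.obj (splxObj (n + 1)))) :=
      { app := fun {j} v => f.d j (hle v) ≫ D.pi.map (splxMap (op v))
        nat := fun {k j} v δ hδ => by
          show S.map δ ≫ f.d k (hle v) ≫ D.pi.map (splxMap (op v)) = _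
          rw [← Category.assoc, f.nat δ (hle (v.face δ hδ)) (hle v) hδ, Category.assoc,
            ← D.pi.map_comp, splxMap_comp]
          rfl }
    obtain ⟨z, hz⟩ := (ctr_pi D (X := splxObj (n + 1)) (wc_splx (n + 1))).linked _ _ (S.par b)
    obtain ⟨g, ⟨-, hg⟩, -⟩ := S.univ b z hz
    let d : ∀ j, j ≤ n + 1 → (S.F j ⟶ D.pi.obj (splxObj j)) := fun j hj =>
      if h : j ≤ n then f.d j h else (le_antisymm hj (not_le.1 h) : j = n + 1) ▸ g
    have d_low : ∀ j (h : j ≤ n) hj, d j hj = f.d j h := fun j h hj => dif_pos h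
    have d_top : ∀ hj, d (n + 1) hj = g := fun hj => dif_neg (by omega)
    refine ⟨⟨d, fun {i j} δ hi hj hδ => ?_⟩, fun j h => d_low j h (h.trans n.le_succ)⟩
    by_cases hjn : j ≤ n
    · rw [d_low j hjn hj, d_low i ((op_le hδ).trans hjn) hi]
      exact f.nat δ _ hjn hδ
    · obtain rfl : j = n + 1 := le_antisymm hj (not_le.1 hjn)
      by_cases hin : i ≤ n
      · rw [d_top hj, d_low i hin hi]
        have hne : Set.range δ ≠ Set.univ := fun hr => by
          have hs : Function.Surjective δ := Set.range_eq_univ.1 hr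
          have := Fintype.card_le_of_surjective δ hs
          simp only [Fintype.card_fin] at this
          omega
        let v : (OCx.bdry (n + 1)).Simp i := ⟨δ, δ.monotone.strictMono_of_injective hδ, hne⟩
        exact congrArg (fun c : Fam _ _ => c.app v) hg
      · obtain rfl : i = n + 1 := le_antisymm hi (not_le.1 hin)
        rw [op_eq_id hδ, S.map_id, splxMap_id, D.pi.map_id, Category.id_comp, Category.comp_id]
  choose s hs using step
  exact ⟨fun n => Nat.rec h0.some (fun n f => s n f) n, fun n j h => hs n _ j h⟩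

/-- The maps from the simplices of models to the singular simplices. -/
def deltaTo (S : Simplices E) (D : DiscFunctor E) : ∀ n, DeltaTo D S.toSimpBase n :=
  (exists_deltaTo S).choose

theorem deltaTo_eq (S : Simplices E) (D : DiscFunctor E) {n m j : ℕ} (hnm : n ≤ m) (h : j ≤ n) :
    (deltaTo S D m).d j (h.trans hnm) = (deltaTo S D n).d j h := by
  induction hnm with
  | refl => rfl
  | step hm ih => exact ((exists_deltaTo S).choose_spec _ j (h.trans hm)).trans ih

/-- The map from a simplex of models. -/
def delta (S : Simplices E) (D : DiscFunctor E) (k : ℕ) : S.F k ⟶ D.pi.obj (splxObj k) :=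
  (deltaTo S D k).d k le_rfl

theorem delta_nat (S : Simplices E) (D : DiscFunctor E) {i j : ℕ} (δ : Op i j)
    (h : Function.Injective δ) :
    S.map δ ≫ delta S D j = delta S D i ≫ D.pi.map (splxMap δ) := by
  have := (deltaTo S D j).nat δ (op_le h) le_rfl h
  rwa [deltaTo_eq S D (op_le h) le_rfl] at this

/-- Singular simplices give simplices of the fundamental groupoid. -/
def etaHom (S : Simplices E) (D : DiscFunctor E) (Y : CompactlyGenerated.{0, 0}) :
    (sys Y.toTop).Hom (S.toSimpBase.sys (D.pi.obj Y)) where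
  app k g := delta S D k ≫ D.pi.map
    (ConcreteCategory.ofHom (C := CompactlyGenerated.{0, 0}) (X := splxObj k) (fn g))
  nat δ g h := by
    show _ = S.map δ ≫ delta S D _ ≫ D.pi.map _
    rw [← Category.assoc, delta_nat S D δ h, Category.assoc, ← D.pi.map_comp]
    rfl

/-- The comparison of the singular realisation with that of the fundamental groupoid. -/
def eta (S : Simplices E) (D : DiscFunctor E) : Q ⟶ D.pi ⋙ S.toSimpBase.realFunctor where
  app Y := ConcreteCategory.ofHom (C := CompactlyGenerated.{0, 0})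
    (X := CompactlyGenerated.of (sys Y.toTop).Space) (etaHom S D Y).space
  naturality A Y f := ConcreteCategory.hom_ext _ _ fun p => Real.ext (by
    show (p.w.mapDomain _).mapDomain _ = (p.w.mapDomain _).mapDomain _
    rw [← Finsupp.mapDomain_comp, ← Finsupp.mapDomain_comp]
    refine Finsupp.mapDomain_congr fun v _ => ?_
    show (⟨v.k, v.lab, v.strictMono, _⟩ : SimpSys.Vert _) = ⟨v.k, v.lab, v.strictMono, _⟩
    refine congrArg (SimpSys.Vert.mk v.k v.lab v.strictMono) ?_
    show delta S D v.k ≫ D.pi.map _ = (delta S D v.k ≫ D.pi.map _) ≫ D.pi.map f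
    rw [Category.assoc, ← D.pi.map_comp]
    rfl)

end

end Vale.Agent.P259.Sing
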