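import Vale.Agent.P259.Sing.LastWeq
import Vale.Agent.P259.Sing.Delta
import Vale.Agent.P259.Final.BasePoint
import Vale.Agent.P259.Pi.Iota
import Vale.Agent.P259.Top.CarrierDisc

/-!
# P259, Sing: maps of pairs given by cells, natural in functors of spaces
-/

namespace Vale.Agent.P259.Sing

open CategoryTheory
open scoped Topology unitInterval

noncomputable section

variable {E : Ext} (D : DiscFunctor E)

/-- The space of a disc. -/
abbrev discObj (j : ℕ) : CompactlyGenerated.{0, 0} := D.D.obj (E.i.obj (disc j))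

instance : Subsingleton (Splx 0) :=
  ⟨fun x y => (splxHomeo 0).injective (Subtype.ext (funext fun i => by
    obtain rfl : i = 0 := Fin.fin_one_eq_zero i
    have hx := (splxHomeo 0 x).2.2
    have hy := (splxHomeo 0 y).2.2
    rw [Fin.sum_univ_one] at hx hy
    exact hx.trans hy.symm))⟩

theorem hom_point_ext {A : CompactlyGenerated.{0, 0}} (f g : A ⟶ splxObj 0) : f = g :=
  ConcreteCategory.hom_ext _ _ fun _ => (Subsingleton.elim (α := Splx 0) _ _)

/-- The point. -/
def ptPoint : Splx 0 := (splxHomeo 0).symm ⟨fun _ => 1, fun _ => zero_le_one, by simp⟩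

/-- The map to the point. -/
def toPt (j : ℕ) : discObj D j ⟶ splxObj 0 :=
  ConcreteCategory.ofHom (C := CompactlyGenerated.{0, 0}) (ContinuousMap.const _ ptPoint)

/-- A point of a space as a map. -/
def ofPt {Y : CompactlyGenerated.{0, 0}} (y : Y.toTop) : splxObj 0 ⟶ Y :=
  ConcreteCategory.ofHom (C := CompactlyGenerated.{0, 0}) (X := splxObj 0)
    (ContinuousMap.const _ y)

variable (G : CompactlyGenerated.{0, 0} ⥤ CompactlyGenerated.{0, 0})

theorem cmap_map_comp {A B A' : CompactlyGenerated.{0, 0}} (f : A ⟶ B) (g : B ⟶ A')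
    (x : (G.obj A).toTop) : cmap (G.map (f ≫ g)) x = cmap (G.map g) (cmap (G.map f) x) := by
  rw [G.map_comp]
  rfl

/-- The values of a functor at the discs. -/
def fTower : DiscTower where
  V j := (G.obj (discObj D j)).toTop
  d e j := cmap (G.map (D.D.map (E.face e j)))
  coh e j x := by
    rw [← cmap_map_comp, ← cmap_map_comp, ← D.D.map_comp, ← D.D.map_comp,
      E.face_face e false true j]

variable {D G} (F F' : (fTower D G).Fam)

/-- A family transported along a natural transformation. -/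
def pushFam {G' : CompactlyGenerated.{0, 0} ⥤ CompactlyGenerated.{0, 0}} (α : G ⟶ G') :
    (fTower D G').Fam where
  u j := (cmap (α.app (discObj D j))).comp (F.u j)
  nat e j v := by
    show cmap (α.app _) (F.u (j + 1) (hemi e j v)) = _
    rw [F.nat]
    exact ConcreteCategory.congr_hom (α.naturality (D.D.map (E.face e j))) (F.u j v)

theorem rimExt {Z : Type} [TopologicalSpace Z] {n : ℕ} {w w' : C(rim (n + 1), Z)}
    (h : ∀ e v, w ⟨hemi e n v, Ball.hemi_mem_rim e v⟩ = w' ⟨hemi e n v, Ball.hemi_mem_rim e v⟩) :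
    w = w' := by
  refine ContinuousMap.ext fun x => ?_
  obtain ⟨e, v, hv⟩ := Ball.exists_hemi x.2
  obtain rfl : x = ⟨hemi e n v, Ball.hemi_mem_rim e v⟩ := Subtype.ext hv.symm
  exact h e v

theorem exists_cellBdry (n : ℕ) :
    ∃ w : C(rim (n + 1), (G.obj (splxObj 0)).toTop),
      ∀ e v, w ⟨hemi e n v, Ball.hemi_mem_rim e v⟩ = cmap (G.map (toPt D n)) (F.u n v) := by
  obtain ⟨c, hc⟩ := Ball.exists_glue (K := Unit)
    (fun _ : Bool => ((cmap (G.map (toPt D n))).comp (F.u n)).comp ⟨Prod.fst, continuous_fst⟩)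
    fun _ _ _ => rfl
  exact ⟨c.comp ⟨fun w => (w, ()), by fun_prop⟩, fun e v => hc e v ()⟩

/-- The boundary of a cell with constant sides. -/
def cellBdry (n : ℕ) : C(rim (n + 1), (G.obj (splxObj 0)).toTop) := (exists_cellBdry F n).choose

theorem cellBdry_hemi {n : ℕ} (e : Bool) (v : Ball n) :
    cellBdry F n ⟨hemi e n v, Ball.hemi_mem_rim e v⟩ = cmap (G.map (toPt D n)) (F.u n v) :=
  (exists_cellBdry F n).choose_spec e v

variable {n : ℕ} {Y : CompactlyGenerated.{0, 0}} {y : Y.toTop}

/-- Both sides are constant at the point. -/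
def HasPtSides (a : discObj D (n + 1) ⟶ Y) (y : Y.toTop) : Prop :=
  ∀ e, D.D.map (E.face e n) ≫ a = toPt D n ≫ ofPt y

theorem sides_map {a : discObj D (n + 1) ⟶ Y} (ha : HasPtSides a y) (e : Bool)
    (x : (G.obj (discObj D n)).toTop) :
    cmap (G.map a) (cmap (G.map (D.D.map (E.face e n))) x) =
      cmap (G.map (ofPt y)) (cmap (G.map (toPt D n)) x) := by
  rw [← cmap_map_comp, ← cmap_map_comp, ha e]

/-- The map of pairs of a cell with constant sides. -/
def cellMap (a : discObj D (n + 1) ⟶ Y) (ha : HasPtSides a y) :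
    PMap (rim (n + 1)) (cmap (G.map (ofPt y))) where
  f := (cmap (G.map a)).comp (F.u (n + 1))
  w := cellBdry F n
  comm b := by
    obtain ⟨e, v, hv⟩ := Ball.exists_hemi b.2
    obtain rfl : b = ⟨hemi e n v, Ball.hemi_mem_rim e v⟩ := Subtype.ext hv.symm
    rw [cellBdry_hemi]
    show cmap (G.map a) (F.u (n + 1) (hemi e n v)) = _
    rw [F.nat]
    exact sides_map ha e _

theorem cellMap_hom (hV : ∀ j, WC (G.obj (discObj D j)).toTop) (a : discObj D (n + 1) ⟶ Y)
    (ha : HasPtSides a y) : (cellMap F a ha).Hom (cellMap F' a ha) := by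
  obtain ⟨H, H0, H1, hH⟩ := DiscTower.exists_fam_homotopy (T := fTower D G) hV F F'
  obtain ⟨h, hh⟩ := Ball.exists_glue
    (fun _ : Bool => (cmap (G.map (toPt D n))).comp (H n)) fun _ _ _ => rfl
  refine ⟨(cmap (G.map a)).comp (H (n + 1)), h, fun b t => ?_,
    fun x => congrArg (cmap (G.map a)) (H0 _ x), fun x => congrArg (cmap (G.map a)) (H1 _ x),
    fun b => ?_, fun b => ?_⟩
  all_goals
    obtain ⟨e, v, hv⟩ := Ball.exists_hemi b.2
    obtain rfl : b = ⟨hemi e n v, Ball.hemi_mem_rim e v⟩ := Subtype.ext hv.symm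
    rw [hh]
  · show cmap (G.map a) (H (n + 1) (hemi e n v, t)) = _
    rw [hH]
    exact sides_map ha e _
  · exact (congrArg (cmap (G.map (toPt D n))) (H0 n v)).trans (cellBdry_hemi F e v).symm
  · exact (congrArg (cmap (G.map (toPt D n))) (H1 n v)).trans (cellBdry_hemi F' e v).symm

theorem cellMap_push {G' : CompactlyGenerated.{0, 0} ⥤ CompactlyGenerated.{0, 0}} (α : G ⟶ G')
    (a : discObj D (n + 1) ⟶ Y) (ha : HasPtSides a y)
    (hc : ∀ z, cmap (α.app Y) (cmap (G.map (ofPt y)) z)
      = cmap (G'.map (ofPt y)) (cmap (α.app (splxObj 0)) z)) :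
    (cellMap F a ha).map (cmap (α.app Y)) (cmap (α.app (splxObj 0))) (cmap (G'.map (ofPt y))) hc
      = cellMap (pushFam F α) a ha := by
  refine PMap.ext (ContinuousMap.ext fun v => ?_) (rimExt fun e v => ?_)
  · exact ConcreteCategory.congr_hom (α.naturality a) (F.u (n + 1) v)
  · show cmap (α.app _) (cellBdry F n _) = cellBdry (pushFam F α) n _
    rw [cellBdry_hemi, cellBdry_hemi]
    exact ConcreteCategory.congr_hom (α.naturality (toPt D n)) (F.u n v)

variable (D)

/-- The standard family of discs. -/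
def stdFam : (fTower D (𝟭 CompactlyGenerated.{0, 0})).Fam where
  u j := ((D.homeo j).symm : C(Ball j, E.discSpace D.D j))
  nat e j v := (D.homeo (j + 1)).injective (Subtype.ext (by
    refine (congrArg Subtype.val ((D.homeo (j + 1)).apply_symm_apply (hemi e j v))).trans ?_
    show _ = (D.homeo (j + 1) (cmap (D.D.map (E.face e j)) ((D.homeo j).symm v))).1
    rw [D.hemi, Homeomorph.apply_symm_apply]
    rfl))

variable (S : Simplices E) (J : Iota S.toSimpBase)

/-- The family of the identity cells. -/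
def thetaFam : (fTower D (D.pi ⋙ S.toSimpBase.realFunctor)).Fam where
  u j := J.theta (D.pi.obj (discObj D j)) (n := j) (𝟙 (discObj D j))
  nat e j v := by
    show _ = cmap ((D.pi ⋙ S.toSimpBase.realFunctor).map (D.D.map (E.face e j))) _
    refine (DFunLike.congr_fun (J.theta_hemi (D.pi.obj (discObj D (j + 1))) _ e) v).trans ?_
    refine Eq.trans ?_ (DFunLike.congr_fun (J.theta_app (D.pi.map (D.D.map (E.face e j)))
      (n := j) (𝟙 (discObj D j))) v)
    have hcell : D.D.map (E.face e j) ≫ 𝟙 (discObj D (j + 1))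
        = 𝟙 (discObj D j) ≫ D.D.map (E.face e j) := by
      rw [Category.comp_id, Category.id_comp]
    exact congrArg (fun c => J.theta (D.pi.obj (discObj D (j + 1))) (n := j) c v) hcell

theorem thetaFam_cell {j : ℕ} (a : discObj D j ⟶ Y) (v : Ball j) :
    cmap ((D.pi ⋙ S.toSimpBase.realFunctor).map a) ((thetaFam D S J).u j v)
      = J.theta (D.pi.obj Y) (n := j) a v := by
  refine (DFunLike.congr_fun (J.theta_app (D.pi.map a) (n := j) (𝟙 (discObj D j))) v).symm.trans ?_
  exact congrArg (fun c => J.theta (D.pi.obj Y) c v) (Category.id_comp a)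

end

end Vale.Agent.P259.Sing
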