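import Vale.Agent.P259.Sing.Psi
import Vale.Agent.P259.Complex.Approx
import Vale.Agent.P259.Pi.Ball

/-!
# P259, Sing: maps of spheres extend as soon as their last vertex maps do
-/

namespace Vale.Agent.P259.Sing

open CategoryTheory
open P259.Complex P259.Complex.Real
open scoped Topology unitInterval

noncomputable section

variable {Z : Type} [TopologicalSpace Z] {n : ℕ}

/-- The radial map from the cylinder over the sphere. -/
def coneQuot (n : ℕ) : C(I × rim n ⊕ Unit, Ball n) :=
  ⟨Sum.elim (fun p => ⟨fun k => (p.1 : ℝ) * p.2.1.1 k, by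
      have h : ∑ k, p.2.1.1 k ^ 2 = 1 := p.2.2
      simp only [mul_pow, ← Finset.mul_sum, h, mul_one]
      nlinarith [p.1.2.1, p.1.2.2]⟩) fun _ => ⟨0, by simp⟩,
    ((continuous_pi fun k => (continuous_subtype_val.comp continuous_fst).mul
      ((continuous_apply k).comp (continuous_subtype_val.comp
        (continuous_subtype_val.comp continuous_snd)))).subtype_mk _).sumElim continuous_const⟩

theorem coneQuot_inl (s : I) (u : rim n) (k : Fin n) :
    (coneQuot n (Sum.inl (s, u))).1 k = (s : ℝ) * u.1.1 k := rfl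

theorem coneQuot_one (u : rim n) : coneQuot n (Sum.inl (1, u)) = u.1 :=
  Subtype.ext (funext fun k => by rw [coneQuot_inl]; simp)

theorem coneQuot_surjective : Function.Surjective (coneQuot n) := by
  intro v
  by_cases h0 : ∑ k, v.1 k ^ 2 = 0
  · refine ⟨Sum.inr (), Subtype.ext (funext fun k => ?_)⟩
    rw [Finset.sum_eq_zero_iff_of_nonneg fun k _ => sq_nonneg _] at h0
    exact (pow_eq_zero_iff two_ne_zero).1 (h0 k (Finset.mem_univ k)) |>.symm
  · have hs : 0 < Real.sqrt (∑ k, v.1 k ^ 2) :=
      Real.sqrt_pos.2 (lt_of_le_of_ne (Finset.sum_nonneg fun k _ => sq_nonneg _) (Ne.symm h0))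
    have hu : ∑ k, ((Real.sqrt (∑ k, v.1 k ^ 2))⁻¹ * v.1 k) ^ 2 = 1 := by
      simp only [mul_pow, ← Finset.mul_sum, inv_pow]
      rw [Real.sq_sqrt (Finset.sum_nonneg fun k _ => sq_nonneg _), inv_mul_cancel₀ h0]
    refine ⟨Sum.inl (⟨Real.sqrt (∑ k, v.1 k ^ 2), Real.sqrt_nonneg _, Real.sqrt_le_one.2 v.2⟩,
      ⟨⟨fun k => (Real.sqrt (∑ k, v.1 k ^ 2))⁻¹ * v.1 k, hu.le⟩, hu⟩),
      Subtype.ext (funext fun k => ?_)⟩
    rw [coneQuot_inl]
    show Real.sqrt _ * ((Real.sqrt _)⁻¹ * v.1 k) = v.1 k
    rw [← mul_assoc, mul_inv_cancel₀ hs.ne', one_mul]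

theorem coneQuot_eq {s t : I} {u w : rim n}
    (h : coneQuot n (Sum.inl (s, u)) = coneQuot n (Sum.inl (t, w))) :
    s = t ∧ ((s : ℝ) = 0 ∨ u = w) := by
  have hk : ∀ k, (s : ℝ) * u.1.1 k = (t : ℝ) * w.1.1 k := fun k => by
    rw [← coneQuot_inl, h, coneQuot_inl]
  have hsq : ∀ (a : I) (b : rim n), ∑ k, ((a : ℝ) * b.1.1 k) ^ 2 = (a : ℝ) ^ 2 := fun a b => by
    simp only [mul_pow, ← Finset.mul_sum, show ∑ k, b.1.1 k ^ 2 = 1 from b.2, mul_one]
  have h2 : (s : ℝ) ^ 2 = (t : ℝ) ^ 2 := by
    rw [← hsq s u, ← hsq t w]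
    simp [hk]
  have hst : s = t := Subtype.ext ((pow_left_inj₀ s.2.1 t.2.1 two_ne_zero).1 h2)
  subst hst
  refine ⟨rfl, ?_⟩
  by_cases h0 : (s : ℝ) = 0
  · exact Or.inl h0
  · exact Or.inr (Subtype.ext (Subtype.ext (funext fun k => mul_left_cancel₀ h0 (hk k))))

/-- A homotopy to a point extends a map of the sphere over the disc. -/
theorem exists_cone (f : C(rim n, Z)) (p : Z)
    (H : ContinuousMap.Homotopy (ContinuousMap.const _ p) f) :
    ∃ F : C(Ball n, Z), ∀ v : rim n, F v.1 = f v := by
  let g : C(I × rim n ⊕ Unit, Z) :=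
    ⟨Sum.elim H fun _ => p, H.continuous.sumElim continuous_const⟩
  have hq : Topology.IsQuotientMap (coneQuot n) := by
    have : CompactSpace (rim n) := Ball.compactSpace_rim
    exact Topology.IsQuotientMap.of_surjective_continuous coneQuot_surjective
      (coneQuot n).continuous
  have hzero : ∀ (s : I) (u : rim n), (s : ℝ) = 0 → g (Sum.inl (s, u)) = p := fun s u hs => by
    show H (s, u) = p
    rw [show s = 0 from Subtype.ext hs, H.apply_zero]
    rfl
  have hapex : ∀ (s : I) (u : rim n), coneQuot n (Sum.inl (s, u)) = coneQuot n (Sum.inr ()) →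
      (s : ℝ) = 0 := fun s u h => by
    by_contra hs
    have h1 : ∀ k, (s : ℝ) * u.1.1 k = 0 := fun k => by
      rw [← coneQuot_inl, h]
      rfl
    have hu : ∑ k, u.1.1 k ^ 2 = 1 := u.2
    simp [fun k => (mul_eq_zero.1 (h1 k)).resolve_left hs] at hu
  have hfac : Function.FactorsThrough g (coneQuot n) := by
    rintro (⟨s, u⟩ | ⟨⟩) (⟨t, w⟩ | ⟨⟩) h
    · obtain ⟨rfl, hs | rfl⟩ := coneQuot_eq h
      · rw [hzero s u hs, hzero s w hs]
      · rfl
    · exact hzero s u (hapex s u h)
    · exact (hzero t w (hapex t w h.symm)).symm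
    · rfl
  refine ⟨hq.lift g hfac, fun v => ?_⟩
  have h := DFunLike.congr_fun (hq.lift_comp g hfac) (Sum.inl (1, v))
  rw [ContinuousMap.comp_apply, coneQuot_one] at h
  exact h.trans (H.apply_one v)

/-- A null-homotopic map of the sphere extends over the disc. -/
theorem exists_extend_of_null {f : C(rim n, Z)} (h : f.Nullhomotopic) :
    ∃ F : C(Ball n, Z), ∀ v : rim n, F v.1 = f v := by
  obtain ⟨p, ⟨H⟩⟩ := h
  exact exists_cone f p H.symm

theorem ball_nullhomotopic (n : ℕ) : (ContinuousMap.id (Ball n)).Nullhomotopic := by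
  refine ⟨⟨0, by simp⟩, ⟨⟨⟨fun p => ⟨fun k => (1 - (p.1 : ℝ)) * p.2.1 k, ?_⟩, ?_⟩,
    fun v => ?_, fun v => ?_⟩⟩⟩
  · simp only [mul_pow, ← Finset.mul_sum]
    have h0 : 0 ≤ ∑ k, p.2.1 k ^ 2 := Finset.sum_nonneg fun k _ => sq_nonneg _
    nlinarith [p.1.2.1, p.1.2.2, p.2.2,
      mul_le_of_le_one_left h0 (show (1 - (p.1 : ℝ)) ^ 2 ≤ 1 by nlinarith [p.1.2.1, p.1.2.2])]
  · exact (continuous_pi fun k => (continuous_const.sub (continuous_subtype_val.comp
      continuous_fst)).mul ((continuous_apply k).comp (continuous_subtype_val.comp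
        continuous_snd))).subtype_mk _
  · exact Subtype.ext (funext fun k => by simp)
  · exact Subtype.ext (funext fun k => by simp)

/-! ### The boundary of the simplex -/

/-- The boundary of the full simplex. -/
def fullBdry (n : ℕ) : Set (Real (Cx.full (Fin (n + 1)))) := {x | x.w.support ≠ Finset.univ}

/-- A homeomorphism of pairs from the full simplex to the disc. -/
structure SplxBall (n : ℕ) where
  e : Real (Cx.full (Fin (n + 1))) ≃ₜ Ball n
  mem : ∀ x, e x ∈ rim n ↔ x ∈ fullBdry n

variable (E : SplxBall n)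

/-- The homeomorphism of the boundaries. -/
def SplxBall.bd : fullBdry n ≃ₜ rim n where
  toFun x := ⟨E.e x.1, (E.mem _).2 x.2⟩
  invFun v := ⟨E.e.symm v.1, (E.mem _).1 (by rw [Homeomorph.apply_symm_apply]; exact v.2)⟩
  left_inv x := Subtype.ext (E.e.symm_apply_apply x.1)
  right_inv v := Subtype.ext (E.e.apply_symm_apply v.1)
  continuous_toFun := (E.e.continuous.comp continuous_subtype_val).subtype_mk _
  continuous_invFun := (E.e.symm.continuous.comp continuous_subtype_val).subtype_mk _

include E in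
theorem full_nullhomotopic :
    (ContinuousMap.id (Real (Cx.full (Fin (n + 1))))).Nullhomotopic := by
  have h := ((ball_nullhomotopic n).comp_left
    (E.e : C(Real (Cx.full (Fin (n + 1))), Ball n))).comp_right
    (E.e.symm : C(Ball n, Real (Cx.full (Fin (n + 1)))))
  have h1 : (E.e.symm : C(Ball n, Real (Cx.full (Fin (n + 1))))).comp
      ((ContinuousMap.id (Ball n)).comp (E.e : C(_, Ball n))) = ContinuousMap.id _ :=
    ContinuousMap.ext fun x => E.e.symm_apply_apply x
  rwa [h1] at h

/-- A null-homotopic map of the boundary of the simplex extends. -/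
theorem SplxBall.extend (E : SplxBall n) {f : C(fullBdry n, Z)} (h : f.Nullhomotopic) :
    ∃ F : C(Real (Cx.full (Fin (n + 1))), Z), ∀ x : fullBdry n, F x.1 = f x := by
  obtain ⟨F, hF⟩ := exists_extend_of_null (h.comp_left (E.bd.symm : C(rim n, fullBdry n)))
  refine ⟨F.comp (E.e : C(_, Ball n)), fun x => ?_⟩
  exact (hF (E.bd x)).trans (congrArg f (E.bd.symm_apply_apply x))

/-- The singular subdivision commutes with monotone maps of posets. -/
theorem psi_natural {Y : Type} [TopologicalSpace Y] {T T' : Type} [PartialOrder T] [PartialOrder T']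
    (j : T' →o T) {lab : T → ℚ} (hlab : StrictMono lab) {lab' : T' → ℚ} (hlab' : StrictMono lab')
    (hj : ∀ q, lab (j q) = lab' q) (G : C(PReal T, Y)) (c : (Cx.chains T').Simplex) :
    psi hlab G (Cx.sdMap j c) = psi hlab' (G.comp (mapO j)) c := by
  classical
  have hl : labs lab (Cx.sdMap j c) = labs lab' c := by
    show Finset.image lab (Finset.image j c.1) = Finset.image lab' c.1
    rw [Finset.image_image]
    exact Finset.image_congr fun q _ => hj q
  refine le_antisymm (vof_le _ _ hl.le _ _ fun p => ?_) (vof_le _ _ hl.ge _ _ fun p => ?_)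
  · show G (mapO j (mapO (preHom hlab' c) (mapO (inclOf _ _ _) p)))
      = G (mapO (preHom hlab (Cx.sdMap j c)) p)
    rw [mapO_comp, mapO_comp]
    refine congrArg G (mapO_congr _ _ _ fun i _ => ?_)
    refine lab_injOn hlab (c := Cx.sdMap j c) (Finset.mem_image_of_mem j (pre_mem lab' c _))
      (pre_mem lab _ _) ?_
    exact ((hj _).trans ((lab_pre lab' c _).trans (labOf_idxOf _ _ _ _))).trans
      (lab_pre lab (Cx.sdMap j c) i).symm
  · show G (mapO (preHom hlab (Cx.sdMap j c)) (mapO (inclOf _ _ _) p))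
      = G (mapO j (mapO (preHom hlab' c) p))
    rw [mapO_comp, mapO_comp]
    refine congrArg G (mapO_congr _ _ _ fun i _ => ?_)
    refine lab_injOn hlab (c := Cx.sdMap j c) (pre_mem lab _ _)
      (Finset.mem_image_of_mem j (pre_mem lab' c i)) ?_
    exact ((lab_pre lab (Cx.sdMap j c) _).trans (labOf_idxOf _ _ _ _)).trans
      ((lab_pre lab' c i).symm.trans (hj _).symm)

variable {P : Type} [PartialOrder P]

/-- Adjoining a top to a poset. -/
def topIncl (P : Type) [PartialOrder P] : P →o WithTop P :=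
  ⟨fun p => (p : WithTop P), fun _ _ h => WithTop.coe_le_coe.2 h⟩

theorem topIncl_support (y : PReal P) :
    (mapO (topIncl P) y).w.support ⊆ y.w.support.map ⟨topIncl P, WithTop.coe_injective⟩ := by
  intro a ha
  have hne : y.w.mapDomain (topIncl P) a ≠ 0 := Finsupp.mem_support_iff.1 ha
  by_cases hr : a ∈ Set.range (topIncl P)
  · obtain ⟨p, rfl⟩ := hr
    have hinj : Function.Injective (topIncl P) := fun u v h => WithTop.coe_injective h
    rw [Finsupp.mapDomain_apply hinj] at hne
    exact Finset.mem_map.2 ⟨p, Finsupp.mem_support_iff.2 hne, rfl⟩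
  · exact absurd (Finsupp.mapDomain_of_notMem_range _ _ hr) hne

include E in
/-- A map of the boundary extends into the cone on its target. -/
theorem exists_into_cone (f : C(fullBdry n, PReal P)) :
    ∃ g : C(Real (Cx.full (Fin (n + 1))), PReal (WithTop P)),
      ∀ x : fullBdry n, g x.1 = mapO (topIncl P) (f x) := by
  classical
  have : CompactSpace (rim n) := Ball.compactSpace_rim
  have : CompactSpace (fullBdry n) := E.bd.symm.compactSpace
  have htop : ({⊤} : Finset (WithTop P)) ∈ (Cx.chains (WithTop P)).simp := by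
    rw [Cx.mem_chains, Finset.coe_singleton]
    exact IsChain.singleton
  let apex : PReal (WithTop P) := Real.vertex ⊤ htop
  refine E.extend ⟨apex, ⟨(Real.lineHomotopy (ContinuousMap.const _ apex)
    ((mapO (topIncl P)).comp f) fun x => ?_).symm⟩⟩
  rw [Cx.mem_chains]
  intro a ha b hb hab
  simp only [Finset.coe_union, Set.mem_union, Finset.mem_coe] at ha hb
  have hsingle : ∀ c ∈ apex.w.support, c = ⊤ := fun c hc =>
    Finset.mem_singleton.1 (Finsupp.support_single_subset hc)
  rcases ha with ha | ha <;> rcases hb with hb | hb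
  · exact absurd ((hsingle a ha).trans (hsingle b hb).symm) hab
  · exact Or.inr (hsingle a ha ▸ le_top)
  · exact Or.inl (hsingle b hb ▸ le_top)
  · exact (mapO (topIncl P) (f x)).mem ha hb hab

variable {k : ℕ} (D : Subdivision k)

/-- The vertices of a subdivision in the boundary. -/
abbrev BdVert : Type := {t : D.T // D.carrier t ≠ Finset.univ}

/-- The inclusion of the boundary vertices. -/
def bdIncl : BdVert D →o D.T := ⟨Subtype.val, fun _ _ h => h⟩

theorem carrier_ne_univ_of_le {a b : D.T} (hab : a ≤ b) (hb : D.carrier b ≠ Finset.univ) :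
    D.carrier a ≠ Finset.univ := fun ha =>
  hb (Finset.eq_univ_of_forall fun v => D.carrier_mono hab (ha ▸ Finset.mem_univ v))

theorem bdIncl_mem (z : PReal (BdVert D)) : D.h (mapO (bdIncl D) z) ∈ fullBdry k := by
  classical
  show (D.h (mapO (bdIncl D) z)).w.support ≠ Finset.univ
  rw [D.h_support]
  obtain ⟨q, -, hq⟩ := Finset.mem_image.1 (mapO_support (bdIncl D) z
    (Cx.top_mem (mapO (bdIncl D) z).mem (mapO (bdIncl D) z).support_nonempty))
  rw [← hq]
  exact q.2

/-- The boundary vertices subdivide the boundary. -/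
def bdMap : C(PReal (BdVert D), fullBdry k) :=
  ⟨fun z => ⟨D.h (mapO (bdIncl D) z), bdIncl_mem D z⟩,
    (D.h.continuous.comp (mapO (bdIncl D)).continuous).subtype_mk _⟩

theorem bdMap_bijective : Function.Bijective (bdMap D) := by
  have hj : Function.Injective (bdIncl D) := Subtype.val_injective
  constructor
  · intro a b h
    exact Real.ext (Finsupp.mapDomain_injective hj
      (congrArg Real.w (D.h.injective (congrArg Subtype.val h))))
  · intro x
    let y := D.h.symm x.1
    have hy : ∀ t ∈ y.w.support, D.carrier t ≠ Finset.univ := by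
      intro t ht
      refine carrier_ne_univ_of_le D (Cx.le_top y.mem y.support_nonempty ht) ?_
      rw [← D.h_support, Homeomorph.apply_symm_apply]
      exact x.2
    let w : BdVert D →₀ ℝ := y.w.comapDomain (bdIncl D) hj.injOn
    have hw : w.mapDomain (bdIncl D) = y.w := Finsupp.mapDomain_comapDomain _ hj y.w
      fun t ht => ⟨⟨t, hy t ht⟩, rfl⟩
    have htot : w.sum (fun _ c => c) = 1 := by
      rw [← y.total, ← hw, Finsupp.sum_mapDomain_index (fun _ => rfl) fun _ _ _ => rfl]
    have hmem : w.support ∈ (Cx.chains (BdVert D)).simp := by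
      intro a ha b hb hab
      have ha' : bdIncl D a ∈ y.w.support :=
        Finsupp.mem_support_iff.2 (Finsupp.mem_support_iff.1 ha :)
      have hb' : bdIncl D b ∈ y.w.support :=
        Finsupp.mem_support_iff.2 (Finsupp.mem_support_iff.1 hb :)
      exact y.mem ha' hb' fun h => hab (hj h)
    let z : PReal (BdVert D) := ⟨w, fun q => y.nonneg _, htot, hmem⟩
    have hz : mapO (bdIncl D) z = y := Real.ext hw
    exact ⟨z, Subtype.ext ((congrArg D.h hz).trans (D.h.apply_symm_apply x.1))⟩

/-- The homeomorphism from the subdivided boundary. -/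
def bdHomeo : PReal (BdVert D) ≃ₜ fullBdry k :=
  (bdMap D).continuous.homeoOfEquivCompactToT2
    (f := Equiv.ofBijective (bdMap D) (bdMap_bijective D))

theorem bdHomeo_val (z : PReal (BdVert D)) : (bdHomeo D z).1 = D.h (mapO (bdIncl D) z) := rfl

/-- Labels on the boundary vertices extend. -/
theorem exists_lab_extend {lab : BdVert D → ℚ} (hlab : StrictMono lab) :
    ∃ l : D.T → ℚ, StrictMono l ∧ ∀ q : BdVert D, l q.1 = lab q := by
  classical
  obtain ⟨M, hM⟩ : ∃ M : ℚ, ∀ q, lab q ≤ M :=
    ⟨∑ q, |lab q|, fun q => (le_abs_self _).trans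
      (Finset.single_le_sum (fun r _ => abs_nonneg (lab r)) (Finset.mem_univ q))⟩
  refine ⟨fun t => if h : D.carrier t ≠ Finset.univ then lab ⟨t, h⟩
    else M + 1 + (Finset.univ.filter fun s : D.T => s < t).card, fun a b hab => ?_,
    fun q => dif_pos q.2⟩
  by_cases hb : D.carrier b ≠ Finset.univ
  · simp only [dif_pos hb, dif_pos (carrier_ne_univ_of_le D hab.le hb)]
    exact hlab hab
  · by_cases ha : D.carrier a ≠ Finset.univ
    · simp only [dif_pos ha, dif_neg hb]
      exact lt_of_le_of_lt (hM _) (lt_add_of_lt_of_nonneg (lt_add_one M) (Nat.cast_nonneg _))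
    · simp only [dif_neg ha, dif_neg hb, add_lt_add_iff_left, Nat.cast_lt]
      exact Finset.card_lt_card ((Finset.ssubset_iff_of_subset fun s hs => by
        simp only [Finset.mem_filter, Finset.mem_univ, true_and] at hs ⊢
        exact hs.trans hab).2 ⟨a, by simp [hab], by simp⟩)

/-- The monotone map on the boundary read off a monotone map into the cone. -/
theorem exists_bdry_map (D : Subdivision n) (f : C(fullBdry n, PReal P))
    (g : C(Real (Cx.full (Fin (n + 1))), PReal (WithTop P)))
    (hg : ∀ x : fullBdry n, g x.1 = mapO (topIncl P) (f x)) (φ₁ : D.T →o WithTop P)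
    (happ : ∀ x, (mapO φ₁ x).w.support ⊆ (g (D.h x)).w.support) :
    ∃ φ : BdVert D →o P,
      ContinuousMap.Homotopic (f.comp (bdHomeo D : C(PReal (BdVert D), fullBdry n))) (mapO φ) := by
  classical
  have key : ∀ (x : PReal D.T) (t : D.T) (hx : D.h x ∈ fullBdry n),
      φ₁ t ∈ (mapO φ₁ x).w.support → ∃ p ∈ (f ⟨D.h x, hx⟩).w.support, (p : WithTop P) = φ₁ t := by
    intro x t hx ht
    have h := happ x ht
    rw [hg ⟨_, hx⟩] at h
    obtain ⟨p, hp, hpe⟩ := Finset.mem_map.1 (topIncl_support _ h)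
    exact ⟨p, hp, hpe⟩
  have hne : ∀ q : BdVert D, φ₁ q.1 ≠ ⊤ := by
    intro q hq
    have hv : ({q.1} : Finset D.T) ∈ (Cx.chains D.T).simp := by
      rw [Cx.mem_chains, Finset.coe_singleton]
      exact IsChain.singleton
    have hmem : φ₁ q.1 ∈ (mapO φ₁ (Real.vertex q.1 hv)).w.support := by
      show φ₁ q.1 ∈ ((Finsupp.single q.1 (1 : ℝ)).mapDomain φ₁).support
      rw [Finsupp.mapDomain_single, Finsupp.support_single _ one_ne_zero]
      exact Finset.mem_singleton_self _
    have hbd' : D.h (Real.vertex q.1 hv) ∈ fullBdry n := by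
      show (D.point q.1).w.support ≠ Finset.univ
      rw [D.point_support]
      exact q.2
    obtain ⟨p, -, hp⟩ := key _ _ hbd' hmem
    exact WithTop.coe_ne_top (hp.trans hq)
  let φ : BdVert D →o P := ⟨fun q => (φ₁ q.1).untop (hne q), fun a b h =>
    WithTop.coe_le_coe.1 (by
      rw [WithTop.coe_untop, WithTop.coe_untop]
      exact φ₁.monotone h)⟩
  refine ⟨φ, ⟨Real.lineHomotopy _ _ fun z => ?_⟩⟩
  refine (Cx.chains _).down (f (bdHomeo D z)).mem
    (Finset.union_subset subset_rfl fun p hp => ?_)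
  obtain ⟨q, hq, rfl⟩ := Finset.mem_image.1 (mapO_support φ z hp)
  have heq : φ₁.comp (bdIncl D) = (topIncl P).comp φ :=
    OrderHom.ext _ _ (funext fun q => (WithTop.coe_untop _ (hne q)).symm)
  have hmem : φ₁ q.1 ∈ (mapO φ₁ (mapO (bdIncl D) z)).w.support := by
    rw [mapO_comp, heq, ← mapO_comp]
    show φ₁ q.1 ∈ ((mapO φ z).w.mapDomain (topIncl P)).support
    have hinj : Function.Injective (topIncl P) := fun a b h => WithTop.coe_injective h
    rw [Finsupp.mapDomain_support_of_injective hinj]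
    exact Finset.mem_image.2 ⟨φ q, hp, WithTop.coe_untop _ (hne q)⟩
  obtain ⟨p, hp', hpe⟩ := key _ _ (bdIncl_mem D z) hmem
  have hpq : p = φ q := WithTop.coe_injective (hpe.trans (WithTop.coe_untop _ (hne q)).symm)
  exact hpq ▸ hp'

include E in
/-- A map of the boundary is approximated by a monotone map on a subdivision. -/
theorem exists_bdry_approx (f : C(fullBdry n, PReal P)) :
    ∃ (D : Subdivision n) (φ : BdVert D →o P),
      ContinuousMap.Homotopic (f.comp (bdHomeo D : C(PReal (BdVert D), fullBdry n))) (mapO φ) := by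
  obtain ⟨g, hg⟩ := exists_into_cone E f
  obtain ⟨δ, hδ, hφ₀⟩ := Subdivision.exists_heavy g
  obtain ⟨N₀, hN₀⟩ := Subdivision.exists_monotone_approx g hδ
  obtain ⟨φ₀, hφ₀'⟩ := hφ₀ N₀
  obtain ⟨hs, happ⟩ := hN₀ N₀ le_rfl φ₀ hφ₀'
  exact ⟨_, exists_bdry_map _ f g hg (Subdivision.monoApprox N₀ φ₀ hs) happ⟩

variable {Y : Type} [TopologicalSpace Y]

theorem nullhomotopic_bd (E : SplxBall n) {Z : Type} [TopologicalSpace Z] {T : Type}
    [TopologicalSpace T] (G : C(Real (Cx.full (Fin (n + 1))), Z))
    (i : C(T, Real (Cx.full (Fin (n + 1))))) : (G.comp i).Nullhomotopic := by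
  have h := ((full_nullhomotopic E).comp_right G).comp_left i
  exact h

include E in
/-- The last vertex image of an approximation of an extensible map is null-homotopic. -/
theorem nullhomotopic_last (D : Subdivision n) (φ : BdVert D →o (sys Y).Vert)
    (f : C(fullBdry n, (sys Y).Space))
    (h1 : ContinuousMap.Homotopic (f.comp (bdHomeo D : C(PReal (BdVert D), fullBdry n))) (mapO φ))
    (G₀ : C(Real (Cx.full (Fin (n + 1))), Y)) (hG₀ : ∀ x, G₀ x.1 = lastMap Y (f x)) :
    ((lastMap Y).comp (mapO φ)).Nullhomotopic := by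
  obtain ⟨p, hp⟩ := nullhomotopic_bd E G₀
    ((⟨Subtype.val, continuous_subtype_val⟩ : C(fullBdry n, _)).comp
      (bdHomeo D : C(PReal (BdVert D), fullBdry n)))
  refine ⟨p, ?_⟩
  have h2 := (ContinuousMap.Homotopic.refl (lastMap Y)).comp h1
  refine h2.symm.trans ?_
  have he : (lastMap Y).comp (f.comp (bdHomeo D : C(PReal (BdVert D), fullBdry n)))
      = G₀.comp ((⟨Subtype.val, continuous_subtype_val⟩ : C(fullBdry n, _)).comp
        (bdHomeo D : C(PReal (BdVert D), fullBdry n))) :=
    ContinuousMap.ext fun z => (hG₀ _).symm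
  rw [he]
  exact hp

include E in
/-- The singular subdivision of an extensible map of the boundary is null-homotopic. -/
theorem nullhomotopic_psi (D : Subdivision n) {lab : BdVert D → ℚ} (hlab : StrictMono lab)
    (G₁ : C(PReal (BdVert D), Y)) (hnull : G₁.Nullhomotopic) :
    (mapO (psi hlab G₁)).Nullhomotopic := by
  classical
  obtain ⟨G', hG'⟩ := E.extend (f := G₁.comp ((bdHomeo D).symm : C(fullBdry n, PReal (BdVert D))))
    (hnull.comp_left _)
  let G : C(PReal D.T, Y) := G'.comp (D.h : C(PReal D.T, Real (Cx.full (Fin (n + 1)))))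
  have hGj : G.comp (mapO (bdIncl D)) = G₁ := ContinuousMap.ext fun z =>
    (hG' (bdHomeo D z)).trans (congrArg G₁ ((bdHomeo D).symm_apply_apply z))
  obtain ⟨labT, hlabT, hlabj⟩ := exists_lab_extend D hlab
  let e : PReal (Cx.chains D.T).Simplex ≃ₜ Real (Cx.full (Fin (n + 1))) :=
    (Real.baryHomeo (K := Cx.chains D.T)).trans D.h
  have hpsi : mapO (psi hlab G₁) = ((mapO (psi hlabT G)).comp
      (e.symm : C(Real (Cx.full (Fin (n + 1))), PReal (Cx.chains D.T).Simplex))).comp
      ((e : C(PReal (Cx.chains D.T).Simplex, Real (Cx.full (Fin (n + 1))))).comp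
        (mapO (Cx.sdMap (bdIncl D)))) := by
    refine ContinuousMap.ext fun z => Eq.symm ?_
    show mapO (psi hlabT G) (e.symm (e (mapO (Cx.sdMap (bdIncl D)) z))) = mapO (psi hlab G₁) z
    rw [e.symm_apply_apply, mapO_comp]
    refine mapO_congr _ _ _ fun c _ => ?_
    show psi hlabT G (Cx.sdMap (bdIncl D) c) = psi hlab G₁ c
    rw [psi_natural (bdIncl D) hlabT hlab hlabj, hGj]
  rw [hpsi]
  exact nullhomotopic_bd E _ _

/-- A map of the boundary into the singular realisation extends if its image in the space does. -/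
theorem SplxBall.extend_of_last (E : SplxBall n) (f : C(fullBdry n, (sys Y).Space))
    (G₀ : C(Real (Cx.full (Fin (n + 1))), Y)) (hG₀ : ∀ x, G₀ x.1 = lastMap Y (f x)) :
    ∃ F : C(Real (Cx.full (Fin (n + 1))), (sys Y).Space), ∀ x, F x.1 = f x := by
  classical
  refine E.extend ?_
  obtain ⟨D, φ, h1⟩ := exists_bdry_approx E f
  obtain ⟨lab, hlab⟩ := exists_refines φ
  obtain ⟨p, hp⟩ := nullhomotopic_psi E D hlab.strictMono _
    (nullhomotopic_last E D φ f h1 G₀ hG₀)
  let bh : PReal (Cx.chains (BdVert D)).Simplex ≃ₜ fullBdry n :=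
    (Real.baryHomeo (K := Cx.chains (BdVert D))).trans (bdHomeo D)
  have h2 : ContinuousMap.Homotopic
      (f.comp (bh : C(PReal (Cx.chains (BdVert D)).Simplex, fullBdry n))) (ContinuousMap.const _ p) :=
    ((h1.comp (ContinuousMap.Homotopic.refl
      (Real.baryHomeo (K := Cx.chains (BdVert D)) :
        C(PReal (Cx.chains (BdVert D)).Simplex, PReal (BdVert D))))).trans (key hlab)).trans hp
  have h3 := ContinuousMap.Nullhomotopic.comp_left ⟨p, h2⟩
    (bh.symm : C(fullBdry n, PReal (Cx.chains (BdVert D)).Simplex))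
  have he : (f.comp (bh : C(PReal (Cx.chains (BdVert D)).Simplex, fullBdry n))).comp
      (bh.symm : C(fullBdry n, PReal (Cx.chains (BdVert D)).Simplex)) = f :=
    ContinuousMap.ext fun x => congrArg f (bh.apply_symm_apply x)
  rwa [he] at h3

end

end Vale.Agent.P259.Sing
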