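import Vale.Agent.P259.Sing.SplxBall
import Vale.Agent.P259.Top.Pair
import Vale.Agent.P259.Top.Preserves

/-!
# P259, Sing: the last vertex map is a weak homotopy equivalence
-/

namespace Vale.Agent.P259.Sing

open CategoryTheory
open P259.Complex P259.Complex.Real
open P259.Top (Filler DiscLoop)
open scoped Topology unitInterval

noncomputable section

/-- A chosen homeomorphism of pairs. -/
def splxBall (n : ℕ) : SplxBall n := (exists_splxBall n).some

theorem isBall_fullBdry (n : ℕ) : IsBall (fullBdry n) :=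
  (isBall_rim n).of_homeomorph (splxBall n).e.symm fun v => by
    rw [← (splxBall n).mem, Homeomorph.apply_symm_apply]

variable {n : ℕ} {Z : Type} [TopologicalSpace Z]

/-- A map of the disc read on the standard disc. -/
def ofDisc (f : C(P259.Top.Disc n, Z)) : C(Ball n, Z) :=
  f.comp (ballDisc n : C(Ball n, P259.Top.Disc n))

theorem filler_iff {f g : C(P259.Top.Disc n, Z)} :
    Filler f g ↔ (ofDisc f).HomotopicRel (ofDisc g) (rim n) := by
  rw [P259.Top.filler_iff_homotopicRel]
  constructor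
  · rintro ⟨H⟩
    exact ⟨⟨⟨⟨fun p => H (p.1, ballDisc n p.2), by fun_prop⟩, fun v => H.apply_zero _,
      fun v => H.apply_one _⟩, fun t v hv => H.eq_fst t ((Ball.mem_rim_iff v).1 hv)⟩⟩
  · rintro ⟨H⟩
    refine ⟨⟨⟨⟨fun p => H (p.1, (ballDisc n).symm p.2), by fun_prop⟩, fun v => ?_, fun v => ?_⟩,
      fun t v hv => ?_⟩⟩
    · exact (H.apply_zero _).trans (congrArg f ((ballDisc n).apply_symm_apply v))
    · exact (H.apply_one _).trans (congrArg g ((ballDisc n).apply_symm_apply v))
    · exact (H.eq_fst t ((Ball.mem_rim_iff _).2 (by rwa [Homeomorph.apply_symm_apply]))).trans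
        (congrArg f ((ballDisc n).apply_symm_apply v))

variable (Y : Type) [TopologicalSpace Y]

/-- A sphere in the singular realisation extends if its image does. -/
theorem extend_rim (f : C(rim n, (sys Y).Space)) (G : C(Ball n, Y))
    (hG : ∀ v : rim n, G v.1 = lastMap Y (f v)) :
    ∃ F : C(Ball n, (sys Y).Space), ∀ v : rim n, F v.1 = f v := by
  let E := splxBall n
  obtain ⟨F, hF⟩ := E.extend_of_last (f.comp (E.bd : C(fullBdry n, rim n)))
    (G.comp (E.e : C(Real (Cx.full (Fin (n + 1))), Ball n))) fun x => hG (E.bd x)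
  refine ⟨F.comp (E.e.symm : C(Ball n, Real (Cx.full (Fin (n + 1))))), fun v => ?_⟩
  exact (hF (E.bd.symm v)).trans (congrArg f (E.bd.apply_symm_apply v))

/-- Over a weakly contractible space the singular realisation is weakly contractible. -/
theorem wc_space (hY : WC Y) : WC (sys Y).Space := fun _ f => by
  obtain ⟨G, hG⟩ := hY _ ((lastMap Y).comp f)
  exact extend_rim Y f G hG

theorem filler_of_last (f g : C(P259.Top.Disc n, (sys Y).Space))
    (hfg : ∀ v ∈ P259.Top.rim n, f v = g v)
    (h : Filler ((lastMap Y).comp f) ((lastMap Y).comp g)) : Filler f g := by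
  obtain ⟨K, K0, K1⟩ := h
  obtain ⟨c, hc⟩ := Ball.exists_glue (K := Unit)
    (fun e => (ofDisc (if e then f else g)).comp ⟨Prod.fst, continuous_fst⟩)
    (fun v hv _ => (hfg _ ((Ball.mem_rim_iff v).1 hv)).symm)
  let w : C(rim (n + 1), (sys Y).Space) :=
    c.comp ⟨fun v => (v, ()), continuous_id.prodMk continuous_const⟩
  have hw : ∀ e v, w ⟨hemi e n v, Ball.hemi_mem_rim e v⟩
      = ofDisc (if e then f else g) v := fun e v => hc e v ()
  obtain ⟨F, hF⟩ := extend_rim Y w (ofDisc K) fun v => by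
    obtain ⟨e, u, hu⟩ := Ball.exists_hemi v.2
    obtain rfl : v = ⟨hemi e n u, Ball.hemi_mem_rim e u⟩ := Subtype.ext hu.symm
    rw [hw]
    show K (ballDisc (n + 1) (hemi e n u)) = _
    rw [Ball.hemi_eq, Homeomorph.apply_symm_apply]
    cases e
    · exact DFunLike.congr_fun K1 _
    · exact DFunLike.congr_fun K0 _
  refine ⟨F.comp ((ballDisc (n + 1)).symm : C(P259.Top.Disc (n + 1), Ball (n + 1))), ?_, ?_⟩
  · refine ContinuousMap.ext fun v => ?_
    show F ((ballDisc (n + 1)).symm (discSide true n v)) = f v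
    rw [← (ballDisc n).apply_symm_apply v, ← Ball.hemi_eq,
      hF ⟨_, Ball.hemi_mem_rim true _⟩, hw]
    rfl
  · refine ContinuousMap.ext fun v => ?_
    show F ((ballDisc (n + 1)).symm (discSide false n v)) = g v
    rw [← (ballDisc n).apply_symm_apply v, ← Ball.hemi_eq,
      hF ⟨_, Ball.hemi_mem_rim false _⟩, hw]
    rfl

theorem joined_of_last (a b : (sys Y).Space) (h : Joined (lastMap Y a) (lastMap Y b)) :
    Joined a b := by
  rw [P259.Top.joined_iff_filler] at h ⊢
  exact filler_of_last Y _ _ (fun v hv => by simp [P259.Top.rim_zero] at hv) h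

/-- The vertex of a constant point simplex. -/
def ptVert (y : Y) : (sys Y).Vert :=
  vof {0} (Finset.singleton_nonempty 0) (ContinuousMap.const _ y)

/-- The point of a constant point simplex. -/
def ptSpace (y : Y) : (sys Y).Space :=
  Real.vertex (ptVert Y y) (by rw [Cx.mem_chains, Finset.coe_singleton]; exact IsChain.singleton)

variable {Y}

theorem lastMap_eq_of_const {y : Y} (p : (sys Y).Space)
    (h : ∀ v ∈ p.w.support, ∀ q, fn v.g q = y) : lastMap Y p = y :=
  h _ (Cx.top_mem p.mem p.support_nonempty) _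

theorem lastMap_ptSpace (y : Y) : lastMap Y (ptSpace Y y) = y :=
  lastMap_eq_of_const _ fun v hv q => by
    obtain rfl := Finset.mem_singleton.1 (Finsupp.support_single_subset hv)
    rfl

variable {T : Type} [PartialOrder T] {lab : T → ℚ}

/-- A singular subdivision that is constant on a subposet is contractible there, over one point. -/
theorem exists_const_homotopy (hlab : StrictMono lab) (G : C(PReal T, Y)) {y : Y}
    {P : Type} [PartialOrder P] [Fintype P] (j : P →o (Cx.chains T).Simplex)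
    (hG : ∀ s p, G (mapO (preHom hlab (j s)) p) = y) :
    ∃ H : (mapO ((psi hlab G).comp j)).Homotopy (mapO (OrderHom.const P (ptVert Y y))),
      ∀ t z, lastMap Y (H (t, z)) = y := by
  classical
  let u : P →o (sys Y).Vert :=
    { toFun := fun s => vof (insert 0 (labs lab (j s))) (Finset.insert_nonempty _ _)
        (ContinuousMap.const _ y)
      monotone' := fun s t hst => vof_le _ _
        (Finset.insert_subset_insert _ (labs_mono lab (j.monotone hst))) _ _ fun _ => rfl }
  have h1 : (psi hlab G).comp j ≤ u := fun s =>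
    vof_le _ _ (Finset.subset_insert _ _) _ _ fun p => (hG s p).symm
  have h2 : OrderHom.const P (ptVert Y y) ≤ u := fun s =>
    vof_le _ _ (Finset.singleton_subset_iff.2 (Finset.mem_insert_self _ _)) _ _ fun _ => rfl
  obtain ⟨H₁, hH₁⟩ := exists_homotopy_of_le _ u h1
  obtain ⟨H₂, hH₂⟩ := exists_homotopy_of_le _ u h2
  refine ⟨H₁.trans H₂.symm, fun t z => lastMap_eq_of_const _ fun v hv q => ?_⟩
  have hmem : v ∈ z.w.support.image ((psi hlab G).comp j) ∪ z.w.support.image u ∨
      v ∈ z.w.support.image (OrderHom.const P (ptVert Y y)) ∪ z.w.support.image u := by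
    rw [ContinuousMap.Homotopy.trans_apply] at hv
    split_ifs at hv
    · exact Or.inl ((hH₁ _ z).1 hv)
    · exact Or.inr ((hH₂ _ z).1 hv)
  simp only [Finset.mem_union, Finset.mem_image] at hmem
  rcases hmem with (⟨s, -, rfl⟩ | ⟨s, -, rfl⟩) | (⟨s, -, rfl⟩ | ⟨s, -, rfl⟩)
  · exact hG s q
  all_goals rfl

/-- The greatest vertex map is homotopic to the barycentric map inside every simplex. -/
theorem exists_top_bary [Fintype T] :
    ∃ L : (mapO (topHom (T := T))).Homotopy
        (Real.baryHomeo (K := Cx.chains T) : C(PReal (Cx.chains T).Simplex, PReal T)),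
      ∀ t z, (L (t, z)).w.support ⊆ (Real.bary z).w.support := by
  classical
  have hsub : ∀ z, (mapO (topHom (T := T)) z).w.support ⊆ (Real.bary z).w.support := by
    intro z q hq
    obtain ⟨d, hd, rfl⟩ := Finset.mem_image.1 (mapO_support topHom z hq)
    exact subset_bary_support hd (Cx.top_mem d.2.1 d.2.2)
  have hline : ∀ z, (mapO (topHom (T := T)) z).w.support ∪ (Real.bary z).w.support
      ∈ (Cx.chains T).simp := fun z =>
    (Cx.chains T).down (Real.bary z).mem (Finset.union_subset (hsub z) subset_rfl)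
  exact ⟨Real.lineHomotopy _ _ hline, fun t z =>
    (Real.lineHomotopy_support _ _ hline t z).trans (Finset.union_subset (hsub z) subset_rfl)⟩

/-- The boundary vertices of a further subdivision, as chains. -/
def bdChain (D : Subdivision n) : BdVert D.next →o (Cx.chains D.T).Simplex :=
  ⟨Subtype.val, fun _ _ h => h⟩

theorem bdChain_const (D : Subdivision n) {lab : D.T → ℚ} (hlab : StrictMono lab)
    (s : BdVert D.next) (p : PReal (Fin (dimOf (labs lab (bdChain D s)) + 1))) :
    D.h (mapO (preHom hlab (bdChain D s)) p) ∈ fullBdry n := by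
  classical
  intro hu
  refine s.2 (Finset.eq_univ_of_forall fun v => ?_)
  have hsub : (D.h (mapO (preHom hlab (bdChain D s)) p)).w.support
      ⊆ D.carrier (topHom (bdChain D s)) := by
    rw [D.h_support_subset_iff]
    intro t ht
    obtain ⟨i, -, rfl⟩ := Finset.mem_image.1 (mapO_support _ p ht)
    exact D.carrier_mono (Cx.le_top (bdChain D s).2.1 (bdChain D s).2.2 (pre_mem lab (bdChain D s) i))
  exact hsub (by rw [hu]; exact Finset.mem_univ v)

theorem bdHomeo_symm_next (D : Subdivision n) (b : fullBdry n) :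
    mapO (bdChain D) ((bdHomeo D.next).symm b) = D.next.h.symm b.1 := by
  refine D.next.h.injective ?_
  refine Eq.trans ?_ (D.next.h.apply_symm_apply b.1).symm
  exact congrArg Subtype.val ((bdHomeo D.next).apply_symm_apply b)

/-- The singular subdivision of a based map of the simplex. -/
def subdivMap (D : Subdivision n) {lab : D.T → ℚ} (hlab : StrictMono lab)
    (c : C(Real (Cx.full (Fin (n + 1))), Y)) :
    C(Real (Cx.full (Fin (n + 1))), (sys Y).Space) :=
  (mapO (psi hlab (c.comp (D.h : C(PReal D.T, Real (Cx.full (Fin (n + 1)))))))).comp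
    (D.next.h.symm : C(Real (Cx.full (Fin (n + 1))), PReal D.next.T))

theorem exists_bdry_homotopy (D : Subdivision n) {lab : D.T → ℚ} (hlab : StrictMono lab)
    {y : Y} (c : C(Real (Cx.full (Fin (n + 1))), Y)) (hc : ∀ x ∈ fullBdry n, c x = y) :
    ∃ K : C(fullBdry n × I, (sys Y).Space), (∀ b, K (b, 0) = subdivMap D hlab c b.1) ∧
      (∀ b, K (b, 1) = ptSpace Y y) ∧ ∀ b t, lastMap Y (K (b, t)) = y := by
  classical
  obtain ⟨H, hconst⟩ := exists_const_homotopy hlab
    (c.comp (D.h : C(PReal D.T, Real (Cx.full (Fin (n + 1)))))) (y := y) (bdChain D)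
    fun s p => hc _ (bdChain_const D hlab s p)
  refine ⟨H.toContinuousMap.comp ⟨fun p => (p.2, (bdHomeo D.next).symm p.1), by fun_prop⟩,
    fun b => ?_, fun b => ?_, fun b t => hconst t _⟩
  · refine (H.apply_zero _).trans ?_
    exact (mapO_comp (bdChain D) _ _).symm.trans
      (congrArg (mapO (psi hlab _)) (bdHomeo_symm_next D b))
  · refine (H.apply_one _).trans (Real.eq_vertex_of_support ?_ _)
    intro v hv
    obtain ⟨s, -, rfl⟩ := Finset.mem_image.1 (mapO_support _ _ hv)
    exact Finset.mem_singleton_self _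

theorem subdivMap_homotopic (D : Subdivision n) {lab : D.T → ℚ} (hlab : StrictMono lab)
    {y : Y} (c : C(Real (Cx.full (Fin (n + 1))), Y)) (hc : ∀ x ∈ fullBdry n, c x = y) :
    ((lastMap Y).comp (subdivMap D hlab c)).HomotopicRel c (fullBdry n) := by
  classical
  obtain ⟨L, hL⟩ := exists_top_bary (T := D.T)
  have hbd : ∀ t x, x ∈ fullBdry n → D.h (L (t, D.next.h.symm x)) ∈ fullBdry n := by
    intro t x hx hu
    refine hx (Finset.eq_univ_of_forall fun v => ?_)
    have hxs : x = D.h (Real.bary (D.next.h.symm x)) := (D.next.h.apply_symm_apply x).symm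
    refine (?_ : (D.h (L (t, D.next.h.symm x))).w.support ⊆ x.w.support)
      (by rw [hu]; exact Finset.mem_univ v)
    rw [D.h_support_subset_iff]
    intro s hs
    exact (D.h_support_subset_iff (Real.bary (D.next.h.symm x)) x.w.support).1
      (by rw [← hxs]) s (hL t _ hs)
  have h0 : ∀ x, c (D.h (L (0, D.next.h.symm x))) = lastMap Y (subdivMap D hlab c x) := fun x =>
    (congrArg (fun z => c (D.h z)) (L.apply_zero (D.next.h.symm x))).trans
      (lastMap_psi hlab (c.comp (D.h : C(PReal D.T, Real (Cx.full (Fin (n + 1))))))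
        (D.next.h.symm x)).symm
  refine ⟨⟨⟨⟨fun p => c (D.h (L (p.1, D.next.h.symm p.2))), by fun_prop⟩, h0, fun x => ?_⟩,
    fun t x hx => ?_⟩⟩
  · exact (congrArg (fun z => c (D.h z)) (L.apply_one _)).trans
      (congrArg c (D.next.h.apply_symm_apply x))
  · exact (hc _ (hbd t x hx)).trans ((h0 x).symm.trans (hc _ (hbd 0 x hx))).symm

theorem exists_strictMono_lab [Fintype T] : ∃ lab : T → ℚ, StrictMono lab := by
  classical
  refine ⟨fun t => ((Finset.univ.filter fun s : T => s < t).card : ℚ), fun a b hab => ?_⟩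
  exact Nat.cast_lt.2 (Finset.card_lt_card ((Finset.ssubset_iff_of_subset fun s hs => by
    simp only [Finset.mem_filter, Finset.mem_univ, true_and] at hs ⊢
    exact hs.trans hab).2 ⟨a, by simp [hab], by simp⟩))

/-- Based maps of the simplex come from the singular realisation. -/
theorem exists_lift_full {y : Y} (c : C(Real (Cx.full (Fin (n + 1))), Y))
    (hc : ∀ x ∈ fullBdry n, c x = y) :
    ∃ a : C(Real (Cx.full (Fin (n + 1))), (sys Y).Space),
      (∀ x ∈ fullBdry n, a x = ptSpace Y y) ∧
        ((lastMap Y).comp a).HomotopicRel c (fullBdry n) := by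
  obtain ⟨lab, hlab⟩ := exists_strictMono_lab (T := (Subdivision.base n).T)
  let m := subdivMap (Subdivision.base n) hlab c
  obtain ⟨K, K0, K1, hK⟩ := exists_bdry_homotopy (Subdivision.base n) hlab c hc
  obtain ⟨A, A0, A1⟩ := (isBall_fullBdry n).hep m K K0
  refine ⟨A.comp ⟨fun x => (x, 1), by fun_prop⟩,
    fun x hx => (A1 ⟨x, hx⟩ 1).trans (K1 ⟨x, hx⟩), ?_⟩
  have hA : ((lastMap Y).comp m).HomotopicRel
      ((lastMap Y).comp (A.comp ⟨fun x => (x, 1), by fun_prop⟩)) (fullBdry n) := by
    refine ⟨⟨⟨⟨fun p => lastMap Y (A (p.2, p.1)), by fun_prop⟩,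
      fun x => congrArg (lastMap Y) (A0 x), fun x => rfl⟩, fun t x hx => ?_⟩⟩
    exact ((congrArg (lastMap Y) (A1 ⟨x, hx⟩ t)).trans (hK _ t)).trans
      ((congrArg (lastMap Y) (K0 ⟨x, hx⟩).symm).trans (hK _ 0)).symm
  exact hA.symm.trans (subdivMap_homotopic (Subdivision.base n) hlab c hc)

/-- Based maps of the disc come from the singular realisation. -/
theorem exists_lift {y : Y} (c : C(Ball n, Y)) (hc : ∀ v ∈ rim n, c v = y) :
    ∃ a : C(Ball n, (sys Y).Space), (∀ v ∈ rim n, a v = ptSpace Y y) ∧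
      ((lastMap Y).comp a).HomotopicRel c (rim n) := by
  let E := splxBall n
  obtain ⟨a, ha, ⟨H⟩⟩ := exists_lift_full
    (c.comp (E.e : C(Real (Cx.full (Fin (n + 1))), Ball n))) fun x hx => hc _ ((E.mem x).2 hx)
  have hmem : ∀ v ∈ rim n, E.e.symm v ∈ fullBdry n := fun v hv =>
    (E.mem _).1 (by rwa [Homeomorph.apply_symm_apply])
  refine ⟨a.comp (E.e.symm : C(Ball n, Real (Cx.full (Fin (n + 1))))),
    fun v hv => ha _ (hmem v hv), ⟨⟨⟨⟨fun p => H (p.1, E.e.symm p.2), by fun_prop⟩,
      fun v => H.apply_zero _, fun v => ?_⟩, fun t v hv => H.eq_fst t (hmem v hv)⟩⟩⟩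
  exact (H.apply_one _).trans (congrArg c (E.e.apply_symm_apply v))

/-- Maps of the ball along one path of boundary values from homotopic maps are homotopic. -/
theorem transport_unique {W : Type} [TopologicalSpace W] (ω : C(I, W))
    (G G' : C(Ball n × I, W)) (hG : ∀ v ∈ rim n, ∀ t, G (v, t) = ω t)
    (hG' : ∀ v ∈ rim n, ∀ t, G' (v, t) = ω t)
    (h : (G.comp ⟨fun v => (v, 0), by fun_prop⟩).HomotopicRel
      (G'.comp ⟨fun v => (v, 0), by fun_prop⟩) (rim n)) :
    (G.comp ⟨fun v => (v, 1), by fun_prop⟩).HomotopicRel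
      (G'.comp ⟨fun v => (v, 1), by fun_prop⟩) (rim n) := by
  have hI : WC I := fun m f => by
    obtain ⟨F, hF⟩ := ContinuousMap.exists_restrict_eq (Ball.isClosed_rim m) f
    exact ⟨F, fun v => DFunLike.congr_fun hF v⟩
  let mk : ∀ (M : C(Ball n × I, W)), (∀ v ∈ rim n, ∀ t, M (v, t) = ω t) → I → PMap (rim n) ω :=
    fun M hM t => ⟨M.comp ⟨fun v => (v, t), by fun_prop⟩, ContinuousMap.const _ t,
      fun v => hM v.1 v.2 t⟩
  have hcyl : ∀ (M : C(Ball n × I, W)) (hM : ∀ v ∈ rim n, ∀ t, M (v, t) = ω t),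
      (mk M hM 0).Hom (mk M hM 1) := fun M hM =>
    ⟨M, ⟨fun p => p.2, continuous_snd⟩, fun v t => hM v.1 v.2 t, fun _ => rfl, fun _ => rfl,
      fun _ => rfl, fun _ => rfl⟩
  exact (PMap.hom_iff_homotopicRel (isBall_rim n) hI (p := mk G hG 1) (q := mk G' hG' 1) rfl).1
    (((hcyl G hG).symm.trans (PMap.Hom.of_homotopicRel (p := mk G hG 0) (q := mk G' hG' 0) rfl h)).trans (hcyl G' hG'))

/-- Loops at every point come from the singular realisation. -/
theorem exists_lift_at (x : (sys Y).Space) (c : C(Ball n, Y))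
    (hc : ∀ v ∈ rim n, c v = lastMap Y x) :
    ∃ a : C(Ball n, (sys Y).Space), (∀ v ∈ rim n, a v = x) ∧
      ((lastMap Y).comp a).HomotopicRel c (rim n) := by
  obtain ⟨γ⟩ := joined_of_last Y (ptSpace Y (lastMap Y x)) x
    (by rw [lastMap_ptSpace])
  obtain ⟨G, G0, G1⟩ := exists_cyl_lift c
    (⟨fun p => lastMap Y (γ (σ p.2)), by fun_prop⟩ : C(rim n × I, Y))
    fun v => by
      show lastMap Y (γ (σ 0)) = c v.1
      rw [unitInterval.symm_zero, γ.target, hc v.1 v.2]
  obtain ⟨a', ha', hrel⟩ := exists_lift (y := lastMap Y x)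
    (G.comp ⟨fun v => (v, 1), by fun_prop⟩) fun v hv => by
      refine (G1 ⟨v, hv⟩ 1).trans ?_
      show lastMap Y (γ (σ 1)) = _
      rw [unitInterval.symm_one, γ.source, lastMap_ptSpace]
  obtain ⟨H, H0, H1⟩ := exists_cyl_lift a'
    (⟨fun p => γ p.2, by fun_prop⟩ : C(rim n × I, (sys Y).Space))
    fun v => γ.source.trans (ha' v.1 v.2).symm
  refine ⟨H.comp ⟨fun v => (v, 1), by fun_prop⟩,
    fun v hv => (H1 ⟨v, hv⟩ 1).trans γ.target, ?_⟩
  have h := transport_unique (n := n) ⟨fun t => lastMap Y (γ t), by fun_prop⟩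
    ((lastMap Y).comp H) (G.comp ⟨fun p => (p.1, σ p.2), by fun_prop⟩)
    (fun v hv t => congrArg (lastMap Y) (H1 ⟨v, hv⟩ t))
    (fun v hv t => (G1 ⟨v, hv⟩ (σ t)).trans (by
      show lastMap Y (γ (σ (σ t))) = _
      rw [unitInterval.symm_symm]
      rfl))
    (by
      convert hrel using 1
      · exact ContinuousMap.ext fun v => congrArg (lastMap Y) (H0 v)
      · exact ContinuousMap.ext fun v => congrArg (fun t => G (v, t)) unitInterval.symm_zero)
  convert h using 1
  · exact ContinuousMap.ext fun v => rfl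
  · exact ContinuousMap.ext fun v =>
      (G0 v).symm.trans (congrArg (fun t => G (v, t)) unitInterval.symm_one).symm

/-- The last vertex map is a weak homotopy equivalence. -/
theorem isWeq_lastMap : P259.Top.IsWeq (lastMap Y) := by
  rw [P259.Top.isWeq_iff]
  refine ⟨fun y => ⟨ptSpace Y y, by rw [lastMap_ptSpace]⟩, joined_of_last Y,
    fun k _ x => ⟨fun c => ?_, fun a b h => ?_⟩⟩
  · obtain ⟨a, ha, hrel⟩ := exists_lift_at x (ofDisc c.1)
      fun v hv => c.2 _ ((Ball.mem_rim_iff v).1 hv)
    refine ⟨⟨a.comp ((ballDisc k).symm : C(P259.Top.Disc k, Ball k)),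
      fun v hv => ha _ ((Ball.mem_rim_iff _).2 (by simpa using hv))⟩, ?_⟩
    rw [filler_iff]
    convert hrel using 1
    exact ContinuousMap.ext fun v => congrArg (lastMap Y) (congrArg a ((ballDisc k).symm_apply_apply v))
  · exact filler_of_last Y a.1 b.1 (fun v hv => (a.2 v hv).trans (b.2 v hv).symm) h

end

end Vale.Agent.P259.Sing
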