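import Vale.Agent.P259.Sing.Sys
import Vale.Agent.P259.Complex.Sd

/-!
# P259, Sing: the singular subdivision of a map and the key comparison
-/

namespace Vale.Agent.P259.Sing

open CategoryTheory
open P259.Complex P259.Complex.Real
open scoped Topology unitInterval

noncomputable section

variable {Y : Type} [TopologicalSpace Y]

/-- One less than the number of elements. -/
abbrev dimOf (s : Finset ℚ) : ℕ := s.card - 1

theorem card_eq_dimOf {s : Finset ℚ} (hs : s.Nonempty) : s.card = dimOf s + 1 :=
  (Nat.sub_add_cancel (Finset.card_pos.2 hs)).symm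

/-- The elements in increasing order. -/
def labOf (s : Finset ℚ) (hs : s.Nonempty) : Fin (dimOf s + 1) ↪o ℚ :=
  s.orderEmbOfFin (card_eq_dimOf hs)

theorem labOf_mem (s : Finset ℚ) (hs : s.Nonempty) (i : Fin (dimOf s + 1)) : labOf s hs i ∈ s :=
  Finset.orderEmbOfFin_mem s _ i

/-- The position of an element. -/
def idxOf (s : Finset ℚ) (hs : s.Nonempty) (v : ℚ) (hv : v ∈ s) : Fin (dimOf s + 1) :=
  (s.orderIsoOfFin (card_eq_dimOf hs)).symm ⟨v, hv⟩

theorem labOf_idxOf (s : Finset ℚ) (hs : s.Nonempty) (v : ℚ) (hv : v ∈ s) :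
    labOf s hs (idxOf s hs v hv) = v := by
  simp [labOf, idxOf, ← Finset.coe_orderIsoOfFin_apply]

/-- A vertex with the given labels. -/
def vof (s : Finset ℚ) (hs : s.Nonempty) (g : C(Splx (dimOf s), Y)) : (sys Y).Vert :=
  ⟨dimOf s, labOf s hs, (labOf s hs).strictMono, g⟩

/-- The inclusion of the positions along an inclusion of label sets. -/
def inclOf {s t : Finset ℚ} (hs : s.Nonempty) (ht : t.Nonempty) (h : s ⊆ t) :
    Op (dimOf s) (dimOf t) where
  toFun i := idxOf t ht (labOf s hs i) (h (labOf_mem s hs i))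
  monotone' _ _ hij :=
    (t.orderIsoOfFin (card_eq_dimOf ht)).symm.monotone ((labOf s hs).monotone hij)

theorem vof_le {s t : Finset ℚ} (hs : s.Nonempty) (ht : t.Nonempty) (h : s ⊆ t)
    (g : C(Splx (dimOf s), Y)) (g' : C(Splx (dimOf t), Y))
    (hg : ∀ p, g' (mapO (inclOf hs ht h) p) = g p) : vof s hs g ≤ vof t ht g' :=
  ⟨inclOf hs ht h, funext fun _ => labOf_idxOf t ht _ _, ContinuousMap.ext hg⟩

variable {T : Type} [PartialOrder T]

/-- A chain gives labels. -/
def labs (lab : T → ℚ) (c : (Cx.chains T).Simplex) : Finset ℚ := c.1.image lab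

theorem labs_nonempty (lab : T → ℚ) (c : (Cx.chains T).Simplex) : (labs lab c).Nonempty :=
  c.2.2.image lab

theorem labs_mono (lab : T → ℚ) {c d : (Cx.chains T).Simplex} (h : c ≤ d) :
    labs lab c ⊆ labs lab d :=
  Finset.image_subset_image h

/-- The element of a chain with a given label. -/
def pre (lab : T → ℚ) (c : (Cx.chains T).Simplex)
    (i : Fin (dimOf (labs lab c) + 1)) : T :=
  (Finset.mem_image.1 (labOf_mem (labs lab c) (labs_nonempty lab c) i)).choose

theorem pre_mem (lab : T → ℚ) (c : (Cx.chains T).Simplex)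
    (i : Fin (dimOf (labs lab c) + 1)) : pre lab c i ∈ c.1 :=
  (Finset.mem_image.1 (labOf_mem (labs lab c) (labs_nonempty lab c) i)).choose_spec.1

theorem lab_pre (lab : T → ℚ) (c : (Cx.chains T).Simplex)
    (i : Fin (dimOf (labs lab c) + 1)) :
    lab (pre lab c i) = labOf (labs lab c) (labs_nonempty lab c) i :=
  (Finset.mem_image.1 (labOf_mem (labs lab c) (labs_nonempty lab c) i)).choose_spec.2

variable {lab : T → ℚ} (hlab : StrictMono lab)

include hlab in
theorem lab_le_iff {c : (Cx.chains T).Simplex} {a b : T} (ha : a ∈ c.1) (hb : b ∈ c.1) :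
    lab a ≤ lab b ↔ a ≤ b := by
  refine ⟨fun h => ?_, fun h => hlab.monotone h⟩
  by_cases hab : a = b
  · exact hab.le
  · rcases c.2.1 ha hb hab with h' | h'
    · exact h'
    · exact absurd (hlab (lt_of_le_of_ne h' (Ne.symm hab))) h.not_gt

include hlab in
theorem lab_injOn {c : (Cx.chains T).Simplex} {a b : T} (ha : a ∈ c.1) (hb : b ∈ c.1)
    (h : lab a = lab b) : a = b :=
  le_antisymm ((lab_le_iff hlab ha hb).1 h.le) ((lab_le_iff hlab hb ha).1 h.ge)

/-- The elements of a chain in increasing order. -/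
def preHom (c : (Cx.chains T).Simplex) : Fin (dimOf (labs lab c) + 1) →o T where
  toFun := pre lab c
  monotone' i j hij := by
    refine (lab_le_iff hlab (pre_mem lab c i) (pre_mem lab c j)).1 ?_
    rw [lab_pre lab c, lab_pre lab c]
    exact (labOf _ _).monotone hij

/-- The vertex of a chain: its labels and the restriction of the map. -/
def psiVert (G : C(PReal T, Y)) (c : (Cx.chains T).Simplex) : (sys Y).Vert :=
  vof (labs lab c) (labs_nonempty lab c) (G.comp (mapO (preHom hlab c)))

/-- The singular subdivision of a map. -/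
def psi (G : C(PReal T, Y)) : (Cx.chains T).Simplex →o (sys Y).Vert where
  toFun := psiVert hlab G
  monotone' c d hcd := by
    refine vof_le _ _ (labs_mono lab hcd) _ _ fun p => ?_
    show G (mapO (preHom hlab d) (mapO (inclOf _ _ _) p)) = G (mapO (preHom hlab c) p)
    rw [mapO_comp]
    refine congrArg G (mapO_congr _ _ _ fun i _ => ?_)
    refine lab_injOn hlab (c := d) (pre_mem lab d _) (hcd (pre_mem lab c i)) ?_
    exact ((lab_pre lab d _).trans (labOf_idxOf _ _ _ _)).trans rfl |>.trans (lab_pre lab c i).symm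

/-- The greatest element of a chain, monotone in the chain. -/
def topHom : (Cx.chains T).Simplex →o T where
  toFun c := Cx.top c.2.1 c.2.2
  monotone' c d h := Cx.le_top d.2.1 d.2.2 (h (Cx.top_mem c.2.1 c.2.2))

theorem lastPos_psi {c d : (Cx.chains T).Simplex} (hdc : d ≤ c) (G : C(PReal T, Y)) :
    pre lab c (lastPos (psi hlab G c) (psi hlab G d)) = topHom d := by
  have h : psi hlab G d ≤ psi hlab G c := (psi hlab G).monotone hdc
  refine lab_injOn hlab (c := c) (pre_mem lab c _) (hdc (Cx.top_mem d.2.1 d.2.2)) ?_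
  rw [lastPos_eq h]
  refine (lab_pre lab c _).trans ((pos_lab h _).trans ?_)
  show labOf (labs lab d) (labs_nonempty lab d) (Fin.last _) = _
  refine le_antisymm ?_ ?_
  · rw [← lab_pre]
    exact hlab.monotone (Cx.le_top d.2.1 d.2.2 (pre_mem lab d _))
  · calc lab (Cx.top d.2.1 d.2.2) = labOf (labs lab d) (labs_nonempty lab d)
          (idxOf _ _ _ (Finset.mem_image_of_mem lab (Cx.top_mem d.2.1 d.2.2))) :=
        (labOf_idxOf _ _ _ _).symm
      _ ≤ _ := (labOf _ _).monotone (Fin.le_last _)

/-- The last vertex map undoes the singular subdivision up to the greatest vertex map. -/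
theorem lastMap_psi (G : C(PReal T, Y)) (z : PReal (Cx.chains T).Simplex) :
    lastMap Y (mapO (psi hlab G) z) = G (mapO topHom z) := by
  classical
  let c := Cx.top z.mem z.support_nonempty
  have hle : ∀ v ∈ (mapO (psi hlab G) z).w.support, v ≤ psi hlab G c := by
    intro v hv
    obtain ⟨d, hd, rfl⟩ := Finset.mem_image.1 (mapO_support _ z hv)
    exact (psi hlab G).monotone (Cx.le_top z.mem z.support_nonempty hd)
  refine (lastFun_eq _ _ hle).trans (congrArg G (Real.ext ?_))
  show ((z.w.mapDomain (psi hlab G)).mapDomain (lastPos (psi hlab G c))).mapDomain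
      (preHom hlab c) = z.w.mapDomain topHom
  rw [← Finsupp.mapDomain_comp]
  refine Finsupp.mapDomain_comp.symm.trans ?_
  exact Finsupp.mapDomain_congr fun d hd =>
    lastPos_psi hlab (Cx.le_top z.mem z.support_nonempty hd) G

/-! ### Refining the labels of a monotone map into the singular system -/

/-- The last position with label at most a number. -/
def floorPos (x : (sys Y).Vert) (v : ℚ) : Fin (x.k + 1) :=
  open scoped Classical in
  if h : (Finset.univ.filter fun i => x.lab i ≤ v).Nonempty
  then (Finset.univ.filter fun i => x.lab i ≤ v).max' h else 0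

theorem floorPos_mono (x : (sys Y).Vert) : Monotone (floorPos x) := by
  classical
  intro u v huv
  have hsub : (Finset.univ.filter fun i => x.lab i ≤ u) ⊆
      Finset.univ.filter fun i => x.lab i ≤ v := fun i hi => by
    simp only [Finset.mem_filter, Finset.mem_univ, true_and] at hi ⊢
    exact hi.trans huv
  unfold floorPos
  by_cases h : (Finset.univ.filter fun i => x.lab i ≤ u).Nonempty
  · rw [dif_pos h, dif_pos (h.mono hsub)]
    exact Finset.max'_subset h hsub
  · rw [dif_neg h]
    exact Fin.zero_le _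

theorem floorPos_eq (x : (sys Y).Vert) {v : ℚ} {i : Fin (x.k + 1)} (h1 : x.lab i ≤ v)
    (h2 : ∀ j, x.lab j ≤ v → x.lab j ≤ x.lab i) : floorPos x v = i := by
  classical
  have hmem : i ∈ Finset.univ.filter fun j => x.lab j ≤ v := by simp [h1]
  unfold floorPos
  rw [dif_pos ⟨i, hmem⟩]
  refine le_antisymm (Finset.max'_le _ _ _ fun j hj => ?_) (Finset.le_max' _ _ hmem)
  exact x.strictMono.le_iff_le.1 (h2 j (Finset.mem_filter.1 hj).2)

theorem floorPos_lab (x : (sys Y).Vert) (i : Fin (x.k + 1)) : floorPos x (x.lab i) = i :=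
  floorPos_eq x le_rfl fun _ h => h

/-- A vertex blown up along extra labels. -/
def blow (x : (sys Y).Vert) (s : Finset ℚ) (hs : s.Nonempty) : (sys Y).Vert :=
  vof s hs ((fn x.g).comp
    (mapO ⟨fun i => floorPos x (labOf s hs i), fun _ _ h =>
      floorPos_mono x ((labOf s hs).monotone h)⟩))

/-- Labels refining a monotone map: each lies just above the last label of its vertex. -/
structure Refines (φ : T →o (sys Y).Vert) (lab : T → ℚ) : Prop where
  strictMono : StrictMono lab
  ge : ∀ q, (φ q).lab (Fin.last _) ≤ lab q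
  gap : ∀ q r, ∀ i, (φ r).lab i ≤ lab q → (φ r).lab i ≤ (φ q).lab (Fin.last _)

variable {φ : T →o (sys Y).Vert} (hφ : Refines φ lab)

include hφ in
theorem floorPos_refines {q r : T} (hqr : q ≤ r) :
    floorPos (φ r) (lab q) = lastPos (φ r) (φ q) := by
  have h : φ q ≤ φ r := φ.monotone hqr
  rw [lastPos_eq h]
  refine floorPos_eq _ ?_ fun j hj => ?_
  · rw [pos_lab]
    exact hφ.ge q
  · rw [pos_lab]
    exact hφ.gap q r j hj

/-- The labels of the common refinement. -/
def bigLabs (φ : T →o (sys Y).Vert) (lab : T → ℚ) (c : (Cx.chains T).Simplex) : Finset ℚ :=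
  Finset.univ.image (φ (topHom c)).lab ∪ labs lab c

theorem bigLabs_nonempty (φ : T →o (sys Y).Vert) (lab : T → ℚ) (c : (Cx.chains T).Simplex) :
    (bigLabs φ lab c).Nonempty :=
  (labs_nonempty lab c).mono Finset.subset_union_right

/-- The common refinement. -/
def refine' : (Cx.chains T).Simplex →o (sys Y).Vert where
  toFun c := blow (φ (topHom c)) (bigLabs φ lab c) (bigLabs_nonempty φ lab c)
  monotone' c d hcd := by
    have hle : φ (topHom c) ≤ φ (topHom d) := φ.monotone (topHom.monotone hcd)
    have hsub : bigLabs φ lab c ⊆ bigLabs φ lab d := by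
      refine Finset.union_subset_union (fun v hv => ?_) (labs_mono lab hcd)
      obtain ⟨i, -, rfl⟩ := Finset.mem_image.1 hv
      exact Finset.mem_image.2 ⟨pos hle i, Finset.mem_univ _, pos_lab hle i⟩
    have key : ∀ v ∈ bigLabs φ lab c,
        floorPos (φ (topHom d)) v = pos hle (floorPos (φ (topHom c)) v) := by
      intro v hv
      rcases Finset.mem_union.1 hv with h | h
      · obtain ⟨i, -, rfl⟩ := Finset.mem_image.1 h
        rw [floorPos_lab, ← pos_lab hle i, floorPos_lab]
      · obtain ⟨q, hq, rfl⟩ := Finset.mem_image.1 h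
        have hqc : q ≤ topHom c := Cx.le_top c.2.1 c.2.2 hq
        rw [floorPos_refines hφ hqc, floorPos_refines hφ (hqc.trans (topHom.monotone hcd)),
          lastPos_trans hle (φ.monotone hqc)]
    refine vof_le _ _ hsub _ _ fun p => ?_
    show fn (φ (topHom d)).g (mapO _ (mapO _ p)) = fn (φ (topHom c)).g (mapO _ p)
    rw [pos_g hle, mapO_comp, mapO_comp]
    refine congrArg _ (mapO_congr _ _ _ fun i _ => ?_)
    exact (congrArg (floorPos _) (labOf_idxOf _ _ _ _)).trans (key _ (labOf_mem _ _ i))

theorem le_refine' (c : (Cx.chains T).Simplex) : φ (topHom c) ≤ refine' hφ c := by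
  let x := φ (topHom c)
  have hmem : ∀ i, x.lab i ∈ bigLabs φ lab c := fun i =>
    Finset.mem_union_left _ (Finset.mem_image_of_mem _ (Finset.mem_univ i))
  let δ : Op x.k (dimOf (bigLabs φ lab c)) :=
    ⟨fun i => idxOf _ (bigLabs_nonempty φ lab c) (x.lab i) (hmem i),
      fun i j h => ((bigLabs φ lab c).orderIsoOfFin _).symm.monotone (x.strictMono.monotone h)⟩
  refine ⟨δ, funext fun i => labOf_idxOf _ _ _ _, ContinuousMap.ext fun p => ?_⟩
  show fn x.g (mapO _ (mapO δ p)) = fn x.g p
  rw [mapO_comp]
  refine congrArg _ ((mapO_congr _ OrderHom.id _ fun i _ => ?_).trans (mapO_id p))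
  exact (congrArg (floorPos x) (labOf_idxOf _ _ _ _)).trans (floorPos_lab x i)

theorem psi_le_refine' [Fintype T] (c : (Cx.chains T).Simplex) :
    psi hφ.strictMono ((lastMap Y).comp (mapO φ)) c ≤ refine' hφ c := by
  classical
  refine vof_le _ _ Finset.subset_union_right _ _ fun p => ?_
  show fn (φ (topHom c)).g (mapO _ (mapO _ p))
    = lastMap Y (mapO φ (mapO (preHom hφ.strictMono c) p))
  refine ((congrArg _ (mapO_comp _ _ p)).trans ?_).trans
    (congrArg _ (mapO_comp _ φ p)).symm
  have hle : ∀ v ∈ (mapO (φ.comp (preHom hφ.strictMono c)) p).w.support,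
      v ≤ φ (topHom c) := by
    intro v hv
    obtain ⟨i, -, rfl⟩ := Finset.mem_image.1 (mapO_support _ p hv)
    exact φ.monotone (Cx.le_top c.2.1 c.2.2 (pre_mem lab c i))
  refine Eq.trans (congrArg _ ?_) (lastFun_eq _ _ hle).symm
  refine Real.ext ?_
  show p.w.mapDomain _ = (p.w.mapDomain _).mapDomain (lastPos (φ (topHom c)))
  rw [← Finsupp.mapDomain_comp]
  refine Finsupp.mapDomain_congr fun i _ => ?_
  exact ((congrArg (floorPos _) (labOf_idxOf _ _ _ _)).trans
    (congrArg (floorPos _) (lab_pre lab c i).symm)).trans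
    (floorPos_refines hφ (Cx.le_top c.2.1 c.2.2 (pre_mem lab c i) : pre lab c i ≤ topHom c))

/-- The realisation of the greatest vertex map is homotopic to the barycentric map. -/
theorem bary_homotopic_top [Fintype T] {W : Type} [PartialOrder W] (φ : T →o W) :
    ContinuousMap.Homotopic
      ((mapO φ).comp (Real.baryHomeo (K := Cx.chains T) :
        C(PReal (Cx.chains T).Simplex, PReal T)))
      ((mapO φ).comp (mapO topHom)) := by
  classical
  refine ⟨Real.lineHomotopy _ _ fun z => ?_⟩
  refine (Cx.chains W).down (Cx.isSimplicial_of_monotone φ.monotone _ (Real.bary z).mem)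
    (Finset.union_subset ?_ ?_)
  · exact mapO_support φ (Real.bary z)
  · refine (mapO_support φ _).trans (Finset.image_subset_image ?_)
    intro q hq
    obtain ⟨d, hd, rfl⟩ := Finset.mem_image.1 (mapO_support topHom z hq)
    exact subset_bary_support hd (Cx.top_mem d.2.1 d.2.2)

/-- Key lemma: a monotone map into the singular system is homotopic to the singular subdivision
of its last vertex map. -/
theorem key [Fintype T] (hφ : Refines φ lab) :
    ContinuousMap.Homotopic
      ((mapO φ).comp (Real.baryHomeo (K := Cx.chains T) :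
        C(PReal (Cx.chains T).Simplex, PReal T)))
      (mapO (psi hφ.strictMono ((lastMap Y).comp (mapO φ)))) := by
  classical
  have h1 : (mapO φ).comp (mapO topHom) = mapO (φ.comp topHom) :=
    ContinuousMap.ext fun z => mapO_comp topHom φ z
  refine (bary_homotopic_top φ).trans ?_
  rw [h1]
  obtain ⟨H, -⟩ := exists_homotopy_of_le (φ.comp topHom) (refine' hφ) (le_refine' hφ)
  obtain ⟨H', -⟩ := exists_homotopy_of_le (psi hφ.strictMono ((lastMap Y).comp (mapO φ)))
    (refine' hφ) (psi_le_refine' hφ)
  exact ⟨H.trans H'.symm⟩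

/-- Refining labels exist on a finite poset. -/
theorem exists_refines [Fintype T] (φ : T →o (sys Y).Vert) : ∃ lab : T → ℚ, Refines φ lab := by
  classical
  let use : Finset ℚ := Finset.univ.biUnion fun q => Finset.univ.image (φ q).lab
  let r : T → ℕ := fun q => (Finset.univ.filter fun s => s < q).card
  have hr : StrictMono r := fun a b hab => Finset.card_lt_card
    ((Finset.ssubset_iff_of_subset fun s hs => by
      simp only [Finset.mem_filter, Finset.mem_univ, true_and] at hs ⊢
      exact hs.trans hab).2 ⟨a, by simp [hab], by simp⟩)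
  have hrlt : ∀ q, r q < Fintype.card T := fun q =>
    Finset.card_lt_card ((Finset.ssubset_iff_of_subset (Finset.subset_univ _)).2 ⟨q, by simp⟩)
  let gaps : Finset ℚ := ((use ×ˢ use).filter fun p => p.1 < p.2).image fun p => p.2 - p.1
  obtain ⟨g, hg0, hg⟩ : ∃ g : ℚ, 0 < g ∧ ∀ d ∈ gaps, g ≤ d := by
    by_cases h : gaps.Nonempty
    · refine ⟨gaps.min' h, ?_, fun d hd => Finset.min'_le _ d hd⟩
      obtain ⟨p, hp, hpe⟩ := Finset.mem_image.1 (Finset.min'_mem gaps h)
      rw [← hpe]
      linarith [(Finset.mem_filter.1 hp).2]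
    · exact ⟨1, one_pos, fun d hd => absurd ⟨d, hd⟩ h⟩
  let ε : ℚ := g / (Fintype.card T + 1)
  have hε : 0 < ε := div_pos hg0 (by positivity)
  have hsmall : ∀ q, ε * r q < g := fun q => by
    have hlt : (r q : ℚ) < Fintype.card T + 1 := by
      exact_mod_cast (hrlt q).trans (Nat.lt_succ_self _)
    calc ε * r q < ε * (Fintype.card T + 1) := mul_lt_mul_of_pos_left hlt hε
      _ = g := div_mul_cancel₀ _ (by positivity)
  have hnn : ∀ q, 0 ≤ ε * r q := fun q => mul_nonneg hε.le (Nat.cast_nonneg _)
  refine ⟨fun q => (φ q).lab (Fin.last _) + ε * r q, fun a b hab => ?_, fun q => ?_,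
    fun q q' i hi => ?_⟩
  · have hle : φ a ≤ φ b := φ.monotone hab.le
    have h1 : (φ a).lab (Fin.last _) ≤ (φ b).lab (Fin.last _) := by
      rw [← pos_lab hle]
      exact (φ b).strictMono.monotone (Fin.le_last _)
    exact add_lt_add_of_le_of_lt h1 (mul_lt_mul_of_pos_left (Nat.cast_lt.2 (hr hab)) hε)
  · exact le_add_of_nonneg_right (hnn q)
  · by_contra hlt
    rw [not_le] at hlt
    have hm : ∀ q i, (φ q).lab i ∈ use := fun q i =>
      Finset.mem_biUnion.2 ⟨q, Finset.mem_univ _, Finset.mem_image_of_mem _ (Finset.mem_univ i)⟩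
    have hd := hg _ (Finset.mem_image.2 ⟨((φ q).lab (Fin.last _), (φ q').lab i),
      Finset.mem_filter.2 ⟨Finset.mem_product.2 ⟨hm _ _, hm _ _⟩, hlt⟩, rfl⟩)
    linarith [hsmall q]

end

end Vale.Agent.P259.Sing
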