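import Vale.Agent.P259.Sing.Fill

/-!
# P259, Sing: the simplex and the disc are homeomorphic pairs
-/

namespace Vale.Agent.P259.Sing

open P259.Complex P259.Complex.Real
open Set Metric

noncomputable section

variable {n : ℕ}

/-- All barycentric coordinates of a point given by all but the first. -/
def bcoord (x : EuclideanSpace ℝ (Fin n)) : Fin (n + 1) → ℝ :=
  Fin.cons (1 - ∑ i, x i) fun i => x i

theorem continuous_bcoord (v : Fin (n + 1)) :
    Continuous fun x : EuclideanSpace ℝ (Fin n) => bcoord x v := by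
  refine Fin.cases ?_ (fun i => ?_) v
  · simp only [bcoord, Fin.cons_zero]
    fun_prop
  · simp only [bcoord, Fin.cons_succ]
    fun_prop

theorem sum_bcoord (x : EuclideanSpace ℝ (Fin n)) : ∑ v, bcoord x v = 1 := by
  simp [bcoord, Fin.sum_univ_succ]

/-- The simplex in coordinates. -/
def body (n : ℕ) : Set (EuclideanSpace ℝ (Fin n)) := {x | ∀ v, 0 ≤ bcoord x v}

theorem bcoord_comb {x y : EuclideanSpace ℝ (Fin n)} {a b : ℝ} (hab : a + b = 1)
    (v : Fin (n + 1)) : bcoord (a • x + b • y) v = a * bcoord x v + b * bcoord y v := by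
  refine Fin.cases ?_ (fun i => ?_) v
  · simp only [bcoord, Fin.cons_zero, PiLp.add_apply, PiLp.smul_apply, smul_eq_mul,
      Finset.sum_add_distrib, ← Finset.mul_sum]
    linear_combination (norm := ring_nf) -hab
  · simp [bcoord]

theorem convex_body (n : ℕ) : Convex ℝ (body n) := fun x hx y hy a b ha hb hab v => by
  rw [bcoord_comb hab]
  exact add_nonneg (mul_nonneg ha (hx v)) (mul_nonneg hb (hy v))

theorem isClosed_body (n : ℕ) : IsClosed (body n) := by
  have h : body n = ⋂ v, {x | 0 ≤ bcoord x v} := by ext x; simp [body]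
  rw [h]
  exact isClosed_iInter fun v => isClosed_le continuous_const (continuous_bcoord v)

theorem body_le_one {x : EuclideanSpace ℝ (Fin n)} (hx : x ∈ body n) (v : Fin (n + 1)) :
    bcoord x v ≤ 1 :=
  (Finset.single_le_sum (fun u _ => hx u) (Finset.mem_univ v)).trans_eq (sum_bcoord x)

theorem bounded_body (n : ℕ) : Bornology.IsBounded (body n) := by
  refine (isBounded_closedBall (x := (0 : EuclideanSpace ℝ (Fin n))) (r := n + 1)).subset
    fun x hx => ?_
  have h : ‖x‖ ^ 2 ≤ (n : ℝ) := by
    rw [EuclideanSpace.norm_sq_eq]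
    calc ∑ i, ‖x i‖ ^ 2 ≤ ∑ _i : Fin n, (1 : ℝ) := Finset.sum_le_sum fun i _ => by
          have h0 : 0 ≤ bcoord x i.succ := hx i.succ
          have h1 := body_le_one hx i.succ
          simp only [bcoord, Fin.cons_succ] at h0 h1
          rw [Real.norm_eq_abs, sq_abs]
          nlinarith
      _ = n := by simp
  rw [mem_closedBall, dist_zero_right]
  nlinarith [norm_nonneg x, (Nat.cast_nonneg n : (0 : ℝ) ≤ n)]

theorem body_center (n : ℕ) :
    (WithLp.toLp 2 fun _ : Fin n => (1 : ℝ) / (n + 1)) ∈ interior (body n) := by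
  refine interior_maximal (s := body n) (t := {x | ∀ v, 0 < bcoord x v})
    (fun x hx v => (hx v).le) ?_ ?_
  · have h : {x : EuclideanSpace ℝ (Fin n) | ∀ v, 0 < bcoord x v} = ⋂ v, {x | 0 < bcoord x v} := by
      ext x; simp
    rw [h]
    exact isOpen_iInter_of_finite fun v => isOpen_lt continuous_const (continuous_bcoord v)
  · intro v
    refine Fin.cases ?_ (fun i => ?_) v
    · simp only [bcoord, Fin.cons_zero, Finset.sum_const, Finset.card_univ, Fintype.card_fin,
        nsmul_eq_mul]
      rw [mul_one_div, sub_pos, div_lt_one (by positivity)]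
      linarith
    · simp only [bcoord, Fin.cons_succ]
      positivity

theorem interior_body_pos {x : EuclideanSpace ℝ (Fin n)} (hx : x ∈ interior (body n))
    (v : Fin (n + 1)) : 0 < bcoord x v := by
  by_contra hle
  have h0 : bcoord x v = 0 := le_antisymm (not_lt.1 hle) (interior_subset hx v)
  obtain ⟨c, hc⟩ : ∃ c, c = WithLp.toLp 2 fun _ : Fin n => (1 : ℝ) / (n + 1) := ⟨_, rfl⟩
  have hcv : 0 < bcoord c v := by
    rw [hc]
    refine Fin.cases ?_ (fun i => ?_) v
    · simp only [bcoord, Fin.cons_zero, Finset.sum_const, Finset.card_univ, Fintype.card_fin,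
        nsmul_eq_mul]
      rw [mul_one_div, sub_pos, div_lt_one (by positivity)]
      linarith
    · simp only [bcoord, Fin.cons_succ]
      positivity
  have hcont : Continuous fun t : ℝ => (1 + t) • x + (-t) • c := by fun_prop
  have hmem : (fun t : ℝ => (1 + t) • x + (-t) • c) ⁻¹' interior (body n) ∈ nhds (0 : ℝ) :=
    (isOpen_interior.preimage hcont).mem_nhds (by simpa using hx)
  obtain ⟨ε, hε, hball⟩ := Metric.mem_nhds_iff.1 hmem
  have hin : ε / 2 ∈ ball (0 : ℝ) ε := by
    rw [mem_ball, dist_zero_right, Real.norm_eq_abs, abs_of_pos (by linarith)]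
    linarith
  have hb := interior_subset (hball hin) v
  rw [bcoord_comb (by ring), h0] at hb
  nlinarith [mul_pos (half_pos hε) hcv]

theorem mem_frontier_body {x : EuclideanSpace ℝ (Fin n)} (hx : x ∈ body n) :
    x ∈ frontier (body n) ↔ ∃ v, bcoord x v = 0 := by
  rw [frontier, (isClosed_body n).closure_eq, mem_sdiff, and_iff_right hx]
  constructor
  · intro h
    by_contra hne
    push Not at hne
    refine h (interior_maximal (s := body n) (t := {x | ∀ v, 0 < bcoord x v})
      (fun y hy v => (hy v).le) ?_ fun v => lt_of_le_of_ne (hx v) (hne v).symm)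
    have h : {x : EuclideanSpace ℝ (Fin n) | ∀ v, 0 < bcoord x v} = ⋂ v, {x | 0 < bcoord x v} := by
      ext x; simp
    rw [h]
    exact isOpen_iInter_of_finite fun v => isOpen_lt continuous_const (continuous_bcoord v)
  · rintro ⟨v, hv⟩ h
    exact (interior_body_pos h v).ne' hv

theorem exists_splxBall (n : ℕ) : Nonempty (SplxBall n) := by
  classical
  obtain ⟨h, -, hclo, hfr⟩ := exists_homeomorph_image_interior_closure_frontier_eq_unitBall
    (convex_body n) ⟨_, body_center n⟩ (bounded_body n)
  rw [(isClosed_body n).closure_eq] at hclo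
  let g : Real (Cx.full (Fin (n + 1))) → EuclideanSpace ℝ (Fin n) := fun x =>
    WithLp.toLp 2 fun i => x.w i.succ
  have hg : ∀ x v, bcoord (g x) v = x.w v := fun x v => by
    refine Fin.cases ?_ (fun i => ?_) v
    · have := x.sum_eq_one (Finset.subset_univ _)
      rw [Fin.sum_univ_succ] at this
      simp only [bcoord, Fin.cons_zero, g]
      linarith
    · simp [bcoord, g]
  have hgb : ∀ x, g x ∈ body n := fun x v => (hg x v).symm ▸ x.nonneg v
  let F : Real (Cx.full (Fin (n + 1))) → P259.Top.Disc n :=
    fun x => ⟨h (g x), hclo ▸ ⟨g x, hgb x, rfl⟩⟩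
  have hF : Function.Bijective F := by
    constructor
    · intro x y hxy
      refine Real.ext (Finsupp.ext fun v => ?_)
      rw [← hg x v, ← hg y v, h.injective (congrArg Subtype.val hxy)]
    · intro p
      have hp : (p : EuclideanSpace ℝ (Fin n)) ∈ h '' body n := by rw [hclo]; exact p.2
      obtain ⟨y, hy, hyp⟩ := hp
      let z : Real (Cx.full (Fin (n + 1))) :=
        { w := Finsupp.equivFunOnFinite.symm (bcoord y)
          nonneg := hy
          total := by
            rw [Finsupp.sum_fintype _ _ fun _ => rfl]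
            exact sum_bcoord y
          mem := Cx.mem_full _ }
      refine ⟨z, Subtype.ext ?_⟩
      show h (g z) = p
      rw [show g z = y from PiLp.ext fun i => by simp [g, z, bcoord], hyp]
  have hFc : Continuous F := (h.continuous.comp ((PiLp.continuous_toLp 2 _).comp
    (continuous_pi fun i => Real.continuous_coord i.succ))).subtype_mk _
  let e : Real (Cx.full (Fin (n + 1))) ≃ₜ P259.Top.Disc n :=
    hFc.homeoOfEquivCompactToT2 (f := Equiv.ofBijective F hF)
  refine ⟨⟨e.trans (ballDisc n).symm, fun x => ?_⟩⟩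
  rw [Ball.mem_rim_iff, Homeomorph.trans_apply, Homeomorph.apply_symm_apply]
  show ‖h (g x)‖ = 1 ↔ x.w.support ≠ Finset.univ
  rw [← mem_sphere_zero_iff_norm, ← hfr, h.injective.mem_set_image, mem_frontier_body (hgb x)]
  simp only [hg, Ne, Finset.eq_univ_iff_forall, not_forall, Finsupp.mem_support_iff, not_not]

end

end Vale.Agent.P259.Sing
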