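import Vale.Agent.P259.Spec
import Vale.Agent.P259.Complex.Line

/-!
# P259, Sing: the singular simplex system of a space and the last vertex map
-/

namespace Vale.Agent.P259.Sing

open CategoryTheory
open P259.Complex P259.Complex.Real
open scoped Topology unitInterval

noncomputable section

variable (Y : Type) [TopologicalSpace Y]

theorem mapO_id {P : Type} [PartialOrder P] (x : PReal P) : mapO (OrderHom.id : P →o P) x = x :=
  Real.ext Finsupp.mapDomain_id

/-- The singular simplices. -/
def sys : SimpSys where
  S k := C(Splx k, Y)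
  op a g := g.comp (mapO a)
  op_id g := ContinuousMap.ext fun x => congrArg g (mapO_id x)
  op_face_op δ a g _ := ContinuousMap.ext fun x => congrArg g (mapO_comp δ a x)
  op_op_face a δ g _ := ContinuousMap.ext fun x => congrArg g (mapO_comp a δ x)

variable {Y}

/-- A simplex of the singular system as a map. -/
abbrev fn {k : ℕ} (g : (sys Y).S k) : C(Splx k, Y) := g

theorem sys_op {k j : ℕ} (a : Op k j) (g : (sys Y).S j) (x : Splx k) :
    fn ((sys Y).op a g) x = fn g (mapO a x) :=
  rfl

/-- Postcomposition as a map of systems. -/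
def sysMap {Z : Type} [TopologicalSpace Z] (f : C(Y, Z)) : (sys Y).Hom (sys Z) where
  app _ g := f.comp g
  nat _ _ _ := rfl

/-- The singular simplices as a functor to spaces. -/
def Q : CompactlyGenerated.{0, 0} ⥤ CompactlyGenerated.{0, 0} where
  obj Y := CompactlyGenerated.of (sys Y.toTop).Space
  map f := CompactlyGenerated.ofHom (sysMap (cmap f)).space
  map_id Y := ConcreteCategory.hom_ext _ _ fun p => Real.ext (by
    show p.w.mapDomain _ = p.w
    exact (Finsupp.mapDomain_congr fun v _ => rfl).trans Finsupp.mapDomain_id)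
  map_comp f g := ConcreteCategory.hom_ext _ _ fun p => Real.ext (by
    show p.w.mapDomain _ = (p.w.mapDomain _).mapDomain _
    rw [← Finsupp.mapDomain_comp]
    rfl)

variable {x y z : (sys Y).Vert}

/-- The positions of a smaller vertex in a bigger one. -/
def pos (h : y ≤ x) : Op y.k x.k := Exists.choose h

theorem pos_lab (h : y ≤ x) (i : Fin (y.k + 1)) : x.lab (pos h i) = y.lab i :=
  congrFun (Exists.choose_spec h).1 i

theorem pos_g (h : y ≤ x) (p : Splx y.k) :
    fn y.g p = fn x.g (mapO (pos h) p) := by
  rw [← sys_op]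
  exact congrArg (fun g : (sys Y).S y.k => fn g p) (Exists.choose_spec h).2.symm

theorem pos_pos (h : y ≤ x) (h' : z ≤ y) (i : Fin (z.k + 1)) :
    pos h (pos h' i) = pos (h'.trans h) i :=
  x.strictMono.injective (by rw [pos_lab, pos_lab, pos_lab])

open scoped Classical in
/-- The position in a vertex of the last label of a smaller vertex. -/
def lastPos (x y : (sys Y).Vert) : Fin (x.k + 1) :=
  if h : y ≤ x then pos h (Fin.last y.k) else 0

theorem lastPos_eq (h : y ≤ x) : lastPos x y = pos h (Fin.last y.k) := dif_pos h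

theorem lastPos_trans (h : y ≤ x) (h' : z ≤ y) : pos h (lastPos y z) = lastPos x z := by
  rw [lastPos_eq h', lastPos_eq (h'.trans h), pos_pos]

theorem isSimplicial_lastPos (x : (sys Y).Vert) :
    (Cx.chains (sys Y).Vert).IsSimplicial (Cx.chains (Fin (x.k + 1))) (lastPos x) :=
  fun _ _ _ => (Cx.mem_chains).2 fun _ _ _ _ _ => le_total _ _

/-- The point of a simplex of Y under a point of the realisation. -/
def lastPt (x : (sys Y).Vert) (p : (sys Y).Space) : Splx x.k :=
  Real.map (lastPos x) (isSimplicial_lastPos x) p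

theorem continuous_lastPt (x : (sys Y).Vert) : Continuous (lastPt x) :=
  Real.continuous_map (lastPos x) (isSimplicial_lastPos x)

theorem lastPt_eq {x y : (sys Y).Vert} (h : y ≤ x) {p : (sys Y).Space}
    (hp : ∀ v ∈ p.w.support, v ≤ y) :
    fn x.g (lastPt x p) = fn y.g (lastPt y p) := by
  rw [pos_g h]
  refine congrArg _ (Real.ext ?_)
  show p.w.mapDomain (lastPos x) = (p.w.mapDomain (lastPos y)).mapDomain (pos h)
  rw [← Finsupp.mapDomain_comp]
  exact Finsupp.mapDomain_congr fun v hv => (lastPos_trans h (hp v hv)).symm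

/-- The last vertex map on points. -/
def lastFun (p : (sys Y).Space) : Y :=
  fn (Cx.top p.mem p.support_nonempty).g
    (lastPt (Cx.top p.mem p.support_nonempty) p)

theorem lastFun_eq (x : (sys Y).Vert) (p : (sys Y).Space) (hp : ∀ v ∈ p.w.support, v ≤ x) :
    lastFun p = fn x.g (lastPt x p) :=
  (lastPt_eq (hp _ (Cx.top_mem _ _)) fun _ hv => Cx.le_top _ _ hv).symm

theorem continuous_lastFun : Continuous (lastFun (Y := Y)) := by
  rw [Real.continuous_iff]
  intro s
  by_cases hs : s.1.Nonempty
  · have h : lastFun ∘ Real.ofSimplex s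
        = (fun p => fn (Cx.top s.2 hs).g (lastPt (Cx.top s.2 hs) p)) ∘
          Real.ofSimplex s :=
      funext fun f => lastFun_eq _ _ fun v hv =>
        Cx.le_top s.2 hs (Real.simplexWeight_support s.1 f hv)
    rw [h]
    exact ((fn (Cx.top s.2 hs).g).continuous.comp (continuous_lastPt _)).comp
      (Real.continuous_ofSimplex s)
  · have : IsEmpty (stdSimplex ℝ s.1) := ⟨fun f => by
      have h := f.2.2
      rw [Finset.sum_eq_zero fun i _ => absurd ⟨i.1, i.2⟩ hs] at h
      exact zero_ne_one h⟩
    exact continuous_of_const fun f => isEmptyElim f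

/-- The last vertex map. -/
def lastMap (Y : Type) [TopologicalSpace Y] : C((sys Y).Space, Y) :=
  ⟨lastFun, continuous_lastFun⟩

theorem lastMap_natural {Z : Type} [TopologicalSpace Z] (f : C(Y, Z)) (p : (sys Y).Space) :
    lastMap Z ((sysMap f).space p) = f (lastMap Y p) := by
  classical
  let t := Cx.top p.mem p.support_nonempty
  have hle : ∀ v ∈ ((sysMap f).space p).w.support, v ≤ (sysMap f).vert t := by
    intro v hv
    obtain ⟨u, hu, rfl⟩ := Finset.mem_image.1 (mapO_support (sysMap f).vert p hv)
    exact (sysMap f).vert.monotone (Cx.le_top p.mem p.support_nonempty hu)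
  refine (lastFun_eq _ _ hle).trans (congrArg (fun q => f (fn t.g q)) ?_)
  refine Real.ext ?_
  show (p.w.mapDomain (sysMap f).vert).mapDomain (lastPos ((sysMap f).vert t)) =
    p.w.mapDomain (lastPos t)
  rw [← Finsupp.mapDomain_comp]
  refine Finsupp.mapDomain_congr fun u hu => ?_
  have h1 : u ≤ t := Cx.le_top p.mem p.support_nonempty hu
  have h2 : (sysMap f).vert u ≤ (sysMap f).vert t := (sysMap f).vert.monotone h1
  refine ((sysMap f).vert t).strictMono.injective ?_
  show ((sysMap f).vert t).lab (lastPos ((sysMap f).vert t) ((sysMap f).vert u)) =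
    t.lab (lastPos t u)
  rw [lastPos_eq h2, lastPos_eq h1, pos_lab, pos_lab]
  rfl

/-- The last vertex map as a natural transformation. -/
def last : Q ⟶ 𝟭 CompactlyGenerated.{0, 0} where
  app Y := ConcreteCategory.ofHom (C := CompactlyGenerated.{0, 0})
    (X := CompactlyGenerated.of (sys Y.toTop).Space) (lastMap Y.toTop)
  naturality _ _ f := ConcreteCategory.hom_ext _ _ fun p => lastMap_natural (cmap f) p

end

end Vale.Agent.P259.Sing
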